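/-
Row 258, Sec. 10.1 (home architect: helper244).  ONE ATTEMPT AND ITS RESTARTS.

`OneAttempt` is the estimate on the retained cells of one attempt (Sec. 10.2 + 10.3) together with the stopping family of
total length `≤ |R|/4`; `coreEstimate_of_oneAttempt` is the restart recursion of Sec. 10.1 (Lemma 3.1, attempt packing),
by strong induction on the number of cells of the tree.
-/
import Claimed.Agent.R258.S5.Base
import Claimed.Agent.R258.Pack009
import Claimed.Agent.R258.CellApi.Pack

set_option autoImplicit false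
open MeasureTheory

namespace Claimed.Agent.R258

open Classical in
/-- The estimate of one attempt: stops of total length `≤ |R|/4`, retained cells bounded by `(3/4) Cq η^cs (1+C_N)|R|`. -/
def OneAttempt (c0 C0 q θ Cb cs Cq kmin : ℝ) : Prop :=
  ∀ k : ℝ, kmin ≤ k → ∀ X : BaseSeg, X.Ok c0 C0 q θ Cb k →
  ∀ (N : ℕ) (CN : ℝ) (s0 : ℤ), 0 ≤ CN → LocalBound c0 C0 q N CN →
    (∀ I ∈ X.S, s0 ≤ I.depth ∧ I.depth < s0 + N) →
  ∀ pat : Fin 4 → Bool, PatOk pat →
  ∃ stops : Finset Cell, StopSet X.root stops (1 / 4) ∧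
    ∑ I ∈ X.S.filter (Retained stops), I.len * min (Real.exp (-(k ^ θ))) ‖formV I (X.w I) (X.arg pat I)‖
      ≤ 3 / 4 * (Cq * Real.exp (-(k ^ θ)) ^ cs * (1 + CN)) * X.root.len

/-- heredity of base segments (to be supplied by Sec. 5, helper182) -/
def RestrictOk (c0 C0 q θ Cb : ℝ) : Prop :=
  ∀ (k : ℝ) (X : BaseSeg), X.Ok c0 C0 q θ Cb k → ∀ R' ∈ X.T, (X.restrict R').Ok c0 C0 q θ Cb k

/-- **Sec. 10.1**: restarts.  LEAF P-S10-IND. -/
theorem coreEstimate_of_oneAttempt (c0 C0 q θ Cb cs Cq kmin : ℝ) (hCq : 0 ≤ Cq)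
    (hr : RestrictOk c0 C0 q θ Cb) (h : OneAttempt c0 C0 q θ Cb cs Cq kmin) :
    CoreEstimate c0 C0 q θ Cb cs Cq kmin := by
  classical
  intro k hk X hX N CN s0 hCN hLB hdep pat hpat
  set η := Real.exp (-(k ^ θ)) with hη
  set B := Cq * η ^ cs * (1 + CN) with hB
  have hη0 : 0 ≤ η := (Real.exp_pos _).le
  have hB0 : 0 ≤ B :=
    mul_nonneg (mul_nonneg hCq (Real.rpow_nonneg hη0 cs)) (by linarith)
  have key : ∀ n : ℕ, ∀ X : BaseSeg, X.T.card ≤ n → X.Ok c0 C0 q θ Cb k →
      (∀ I ∈ X.S, s0 ≤ I.depth ∧ I.depth < s0 + N) →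
      ∑ I ∈ X.S, I.len * min η ‖formV I (X.w I) (X.arg pat I)‖ ≤ B * X.root.len := by
    intro n
    induction n with
    | zero =>
      intro X hc hX _
      obtain ⟨D, M, LU, _, _, _, _, hV⟩ := hX
      have h1 := hV.tree.root_mem
      rw [Finset.card_eq_zero.1 (Nat.le_zero.1 hc)] at h1
      exact absurd h1 (Finset.notMem_empty _)
    | succ n ih =>
      intro X hc hX hdep
      obtain ⟨stops, hst, hsum⟩ := h k hk X hX N CN s0 hCN hLB hdep pat hpat
      obtain ⟨D, M, LU, _, _, _, _, hV⟩ := id hX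
      have htree := hV.tree
      have hSsub := hV.S_sub
      set st := cellMaxs (stops.filter (· ∈ X.T)) with hstdef
      have hst_mem : ∀ K ∈ st, K ∈ stops ∧ K ∈ X.T := fun K hK =>
        Finset.mem_filter.1 (cell_maxs_subset _ hK)
      have hlen : ∑ K ∈ st, K.len ≤ 1 / 4 * X.root.len := by
        refine le_trans ?_ hst.len
        exact Finset.sum_le_sum_of_subset_of_nonneg (fun K hK => (hst_mem K hK).1)
          (fun I _ _ => cell_len_nonneg I)
      have hne : ∀ K ∈ st, ¬ X.root ≤ K := by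
        intro K hK hle
        have h1 : X.root.len ≤ K.len := cell_len_le_of_le hle
        have h2 : K.len ≤ ∑ K ∈ st, K.len :=
          Finset.single_le_sum (f := fun K : Cell => K.len) (fun I _ => cell_len_nonneg I) hK
        have := cell_len_pos X.root
        linarith
      set c : Cell → ℝ := fun I => I.len * min η ‖formV I (X.w I) (X.arg pat I)‖ with hcdef
      have hc0 : ∀ I, 0 ≤ c I := fun I =>
        mul_nonneg (cell_len_nonneg I) (le_min hη0 (norm_nonneg _))
      have h1 : ∑ I ∈ X.S, c I = ∑ I ∈ X.S.filter (fun I => I ≤ X.root), c I := by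
        rw [Finset.filter_true_of_mem (fun I hI => htree.le_root I (hSsub hI))]
      have h2 := cell_sum_stops (R := X.root) (stops := st)
        (fun K hK => htree.le_root K (hst_mem K hK).2) (cell_maxs_antichain _) X.S c
      have h3 : ∑ I ∈ X.S.filter (fun I => I ≤ X.root ∧ cellRetained st I), c I ≤
          ∑ I ∈ X.S.filter (Retained stops), c I := by
        refine Finset.sum_le_sum_of_subset_of_nonneg ?_ (fun I _ _ => hc0 I)
        intro I hI
        obtain ⟨hIS, _, hret⟩ := Finset.mem_filter.1 hI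
        refine Finset.mem_filter.2 ⟨hIS, fun K hK hIK => ?_⟩
        have hKT : K ∈ X.T := htree.conv I (hSsub hIS) K hIK (hst.le K hK)
        exact (cell_retained_maxs.1 hret) K (Finset.mem_filter.2 ⟨hK, hKT⟩) hIK
      have h4 : ∀ K ∈ st, ∑ I ∈ X.S.filter (fun I => I ≤ K), c I ≤ B * K.len := by
        intro K hK
        have hKT := (hst_mem K hK).2
        have hcard : (X.restrict K).T.card ≤ n := by
          have hss : (X.restrict K).T ⊂ X.T :=
            Finset.filter_ssubset.2 ⟨X.root, htree.root_mem, hne K hK⟩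
          have := Finset.card_lt_card hss
          omega
        exact ih (X.restrict K) hcard (hr k X hX K hKT)
          (fun I hI => hdep I (Finset.mem_filter.1 hI).1)
      have h5 : ∑ K ∈ st, ∑ I ∈ X.S.filter (fun I => I ≤ K), c I ≤ B * (1 / 4 * X.root.len) := by
        refine le_trans (Finset.sum_le_sum h4) ?_
        rw [← Finset.mul_sum]
        exact mul_le_mul_of_nonneg_left hlen hB0
      have h6 : ∑ I ∈ X.S.filter (Retained stops), c I ≤ 3 / 4 * B * X.root.len := hsum
      rw [h1, h2]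
      linarith
  exact key _ X le_rfl hX hdep

end Claimed.Agent.R258
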