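/-
Row 258, Secs. 10.2-10.3 (home architect: helper244).  THE TOP OF (T3):   AttemptGoal + LeafGoal + RestrictOk  ⟹  CoreGoal.

`AttemptGoal` = everything that Secs. 6, 8, 9 and the operator layer of Sec. 7 construct on ONE attempt, in the abstract form consumed by the
assembly `LeafGoal` (S7/Side.lean): marking-failure stops, `nL ≤ k^Cx` search leaves, for every leaf a valid `SideSys` together with the core
estimate of Prop. 9.3, and the localization identity of Prop. 6.8.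
QUANTIFIERS (Sec. 10.3).  Given `θ, Cb`: ONE exponent `Cx` and the power `pw < 1` are chosen first; they do NOT depend on `q`, on `P`, nor on the
prescribed exponent `Cfar` of the numerical errors (a larger `Cfar` only increases `kmin`: constant factors in front of powers of `k` are absorbed
by one more power of `k`).  The statement holds for EVERY `1 ≤ P ≤ e^k`.

PROOF PLAN of `coreGoal_of_attempt` (LEAF P-S10-FIN; elementary asymptotics, no paper needed):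
 `Cx, pw` from `AttemptGoal`, `CL` from `LeafGoal`; choose `q = 2 + 1/(16 Cx CL)` (`< 3`); `CqL` from `LeafGoal`; put `C' = 4 (Cx + 1)(CL + 1)`,
 `α = min 1 ((1 - pw)/(2 C'))`, `Cfar = C' + 1`, `cs = min (3α/8) ((1-pw)/2)`; `η = exp(-k^θ)`, `P = ⌈η^(-α)⌉₊`.
 For `k` large: `k + 1 ≤ P ≤ e^k`, `16 k^Cx ≤ P`, overhead `poly(k) G0^10 ≤ P^(1/16)`, in particular `pbase Cx k P ≤ 3 P G0 ≤ P^2`
 (double the exponent `C'` accordingly).
 Per leaf `ε = 1/(16 nL)`; `LeafGoal`, `Ctrl.sum` over the leaves, `Ctrl.of_abs` for the localization error, `Ctrl.mono`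
 (`‖H_I(z)‖ ≤ error + ∑_κ leaf_κ`), `Ctrl.min_bound`; stops: `1/16 + 1/16 ≤ 1/4`.
   powered terms `≤ η^(1-pw) P^C' ≤ 2^C' η^((1-pw)/2)`;  `η P^C' ≤ 2^C' η^(1/2)`;  `e^(-Cfar k) P^C' ≤ e^(-k) ≤ η`;
   near bands `≤ (1+CN) CqL C P^(-1/2 + 1/16 + 1/16) ≤ (1+CN) C η^(3α/8)`   (`(K+2)^(CL (q-2)) ≤ (9P)^(Cx CL (q-2)) = (9P)^(1/16)`).
 Then `coreEstimate_of_oneAttempt`.
-/
import Claimed.Agent.R258.S10.Attempt
import Claimed.Agent.R258.S7.Side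
import Claimed.Agent.R258.Pack006

set_option autoImplicit false
open MeasureTheory

namespace Claimed.Agent.R258

open Classical

/-- small overhead `G_0 = exp (C (1 + log 2k)^C)` -/
noncomputable def g0fun (C k : ℝ) : ℝ := Real.exp (C * (1 + Real.log (2 * k)) ^ C)

/-- the base of all polynomially allowed costs: `(1 + k + P) G_0` (NOTE: `G_0` is not polynomial in `k`, and `P` may be small here) -/
noncomputable def pbase (C k : ℝ) (P : ℕ) : ℝ := (1 + k + P) * g0fun C k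

/-- the construction of one attempt -/
def AttemptGoal (c0 C0 : ℝ) : Prop :=
  ∀ θ Cb : ℝ, 0 < θ → θ < 1 → 1 ≤ Cb →
  ∃ Cx pw : ℝ, 1 ≤ Cx ∧ 2 / 3 ≤ pw ∧ pw < 1 ∧
  ∀ Cfar : ℝ, 0 ≤ Cfar → ∃ kmin : ℝ, 1 ≤ kmin ∧
  ∀ k q : ℝ, kmin ≤ k → 2 < q → q < 3 → ∀ X : BaseSeg, X.Ok c0 C0 q θ Cb k → ∀ pat : Fin 4 → Bool, PatOk pat →
  ∀ P : ℕ, 1 ≤ P → (P : ℝ) ≤ Real.exp k →
  ∃ (stops : Finset Cell) (nL : ℕ) (Y : Fin nL → SideSys),
    StopSet X.root stops (1 / 16) ∧ (nL : ℝ) ≤ k ^ Cx ∧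
    (∀ κ, ∃ (Ntr Na Nb : ℕ) (Ea Eb Pi cc M0 far small : ℝ),
      (Y κ).R = X.root ∧ (Y κ).cells = X.S.filter (Retained stops) ∧ (Y κ).w = X.w ∧ (Y κ).P = P ∧
      ((Y κ).K : ℝ) ≤ (1 + k + P) ^ Cx ∧
      (Y κ).Valid c0 C0 (Real.exp (-(k ^ θ))) Ntr Na Nb Ea Eb Pi cc M0 far small ∧
      /- Prop. 9.3: patterns with at least three cores -/
      (∀ ε : ℝ, 0 < ε → ε < 1 → ∀ c : Fin 4 → Bool, (Finset.univ.filter fun l => c l = true).card ≤ 1 →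
        Ctrl X.root (X.S.filter (Retained stops)) (fun I => ‖gsum (Y κ).uses (Y κ).w ((Y κ).patArg c) I‖)
          (Real.exp (-k)) ((pbase Cx k P / ε) ^ Cx) pw ε) ∧
      /- strong constants -/
      (Ntr : ℝ) ≤ g0fun Cx k ∧ (Na : ℝ) ≤ g0fun Cx k ∧ (Nb : ℝ) ≤ g0fun Cx k ∧
      Ea ≤ P * g0fun Cx k ∧ Eb ≤ g0fun Cx k ∧ cc ≤ g0fun Cx k ∧ Real.log M0 ≤ k ^ Cx ∧
      /- polynomial budget and numerical errors -/
      Pi ≤ pbase Cx k P ^ Cx ∧ far ≤ Real.exp (-(Cfar * k)) ∧ Real.sqrt (M0 * small) ≤ Real.exp (-(Cfar * k))) ∧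
    /- Prop. 6.8 -/
    ∑ I ∈ X.S.filter (Retained stops),
      I.len * ‖formV I (X.w I) (X.arg pat I) - ∑ κ, gsum (Y κ).uses (Y κ).w (Y κ).Z I‖ ≤ Real.exp (-k) * X.root.len

/-! ### helpers of P-S10-FIN (prefix `fin_`) -/

section FinAsym
open Filter Asymptotics

theorem fin_log_asym (θ δ A a B C : ℝ) (hθ : 0 < θ) (hδ : 0 < δ) (hB : 0 ≤ B) (hC : 0 ≤ C) :
    ∀ᶠ k : ℝ in atTop, A + a * Real.log k + B * (1 + Real.log (2 * k)) ^ C ≤ δ * k ^ θ := by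
  have e1 : ∀ᶠ k : ℝ in atTop, A / (δ / 3) ≤ k ^ θ := (tendsto_rpow_atTop hθ).eventually_ge_atTop _
  have e2 := (isLittleO_log_rpow_atTop hθ).def (c := δ / (3 * (|a| + 1))) (by positivity)
  have e3 := (isLittleO_log_rpow_rpow_atTop C hθ).def (c := δ / (3 * (B * 2 ^ C + 1))) (by positivity)
  have e4 : ∀ᶠ k : ℝ in atTop, Real.exp 2 ≤ k := eventually_ge_atTop _
  filter_upwards [e1, e2, e3, e4] with k h1 h2 h3 h4
  have hk0 : 0 < k := lt_of_lt_of_le (Real.exp_pos 2) h4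
  have hkθ : 0 ≤ k ^ θ := Real.rpow_nonneg hk0.le _
  have hlog : 2 ≤ Real.log k := by
    rw [Real.le_log_iff_exp_le hk0]; exact h4
  rw [Real.norm_of_nonneg hkθ] at h2 h3
  have t1 : A ≤ δ / 3 * k ^ θ := by
    rw [div_le_iff₀ (by positivity)] at h1; linarith
  have t2 : a * Real.log k ≤ δ / 3 * k ^ θ := by
    calc a * Real.log k ≤ |a| * ‖Real.log k‖ := by
          rw [Real.norm_eq_abs, ← abs_mul]; exact le_abs_self _
      _ ≤ |a| * (δ / (3 * (|a| + 1)) * k ^ θ) := by gcongr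
      _ = (|a| / (|a| + 1)) * (δ / 3 * k ^ θ) := by field_simp
      _ ≤ 1 * (δ / 3 * k ^ θ) := by
          gcongr
          rw [div_le_one (by positivity)]; linarith
      _ = _ := one_mul _
  have t3 : B * (1 + Real.log (2 * k)) ^ C ≤ δ / 3 * k ^ θ := by
    have hl2 : Real.log (2 * k) = Real.log 2 + Real.log k := Real.log_mul (by norm_num) hk0.ne'
    have hl2' : Real.log 2 < 1 := by
      have := Real.log_two_lt_d9; linarith
    have hb : (1 + Real.log (2 * k)) ^ C ≤ 2 ^ C * ‖Real.log k ^ C‖ := by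
      rw [Real.norm_of_nonneg (Real.rpow_nonneg (by linarith) _), ← Real.mul_rpow (by norm_num) (by linarith)]
      apply Real.rpow_le_rpow _ _ hC
      · have := Real.log_nonneg (show (1:ℝ) ≤ 2 by norm_num); rw [hl2]; linarith
      · rw [hl2]; linarith
    calc B * (1 + Real.log (2 * k)) ^ C ≤ B * (2 ^ C * (δ / (3 * (B * 2 ^ C + 1)) * k ^ θ)) := by
          gcongr; exact hb.trans (by gcongr)
      _ = (B * 2 ^ C / (B * 2 ^ C + 1)) * (δ / 3 * k ^ θ) := by field_simp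
      _ ≤ 1 * (δ / 3 * k ^ θ) := by
          gcongr
          rw [div_le_one (by positivity)]; linarith
      _ = _ := one_mul _
  linarith

theorem fin_asym (θ δ c a b C : ℝ) (hθ : 0 < θ) (hδ : 0 < δ) (hb : 0 ≤ b) (hC : 0 ≤ C) :
    ∀ᶠ k : ℝ in atTop, c * k ^ a * (g0fun C k) ^ b ≤ Real.exp (δ * k ^ θ) := by
  have e1 := fin_log_asym θ δ (Real.log (|c| + 1)) a (b * C) C hθ hδ (by positivity) hC
  filter_upwards [e1, eventually_gt_atTop (0:ℝ)] with k h1 hk0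
  have hc : (0:ℝ) < |c| + 1 := by positivity
  calc c * k ^ a * (g0fun C k) ^ b ≤ (|c| + 1) * k ^ a * (g0fun C k) ^ b := by
        have : c ≤ |c| + 1 := (le_abs_self c).trans (by linarith)
        have h2 : 0 ≤ k ^ a := Real.rpow_nonneg hk0.le _
        have h3 : 0 ≤ (g0fun C k) ^ b := Real.rpow_nonneg (Real.exp_pos _).le _
        gcongr
    _ = Real.exp (Real.log (|c| + 1) + a * Real.log k + b * C * (1 + Real.log (2 * k)) ^ C) := by
        rw [Real.exp_add, Real.exp_add, Real.exp_log hc, Real.rpow_def_of_pos hk0, g0fun, ← Real.exp_mul]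
        congr 2
        · rw [mul_comm]
        · ring_nf
    _ ≤ _ := Real.exp_le_exp.2 h1

end FinAsym

theorem fin_K2 {Cx k p : ℝ} {K : ℕ} (hCx : 1 ≤ Cx) (hk : 1 ≤ k) (hp : 1 + k ≤ p)
    (hK : (K : ℝ) ≤ (1 + k + p) ^ Cx) : (K : ℝ) + 2 ≤ (6 * p) ^ Cx := by
  have hCx0 : 0 < Cx := by linarith
  have h1 : (1 + k + p) ^ Cx ≤ (2 * p) ^ Cx := Real.rpow_le_rpow (by linarith) (by linarith) hCx0.le
  have h2 : 1 ≤ (2 * p) ^ Cx := Real.one_le_rpow (by linarith) hCx0.le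
  have h3 : (6 * p) ^ Cx = 3 ^ Cx * (2 * p) ^ Cx := by
    rw [← Real.mul_rpow (by norm_num) (by linarith)]; ring_nf
  have h4 : (3 : ℝ) ≤ 3 ^ Cx := by
    calc (3 : ℝ) = 3 ^ (1 : ℝ) := (Real.rpow_one 3).symm
      _ ≤ 3 ^ Cx := Real.rpow_le_rpow_of_exponent_le (by norm_num) hCx
  rw [h3]
  have h5 : 3 * (2 * p) ^ Cx ≤ 3 ^ Cx * (2 * p) ^ Cx := by gcongr
  linarith

theorem fin_B1 {Cx CL k p : ℝ} {K : ℕ} (hCx : 1 ≤ Cx) (hCL : 0 < CL) (hk : 1 ≤ k) (hp : 1 + k ≤ p)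
    (hpk : p ≤ Real.exp k) (hK2 : (K : ℝ) + 2 ≤ (6 * p) ^ Cx) :
    (1 + Real.log ((K : ℝ) + 2)) ^ CL ≤ (4 * Cx) ^ CL * k ^ CL := by
  have hk0 : 0 < k := by linarith
  have hp0 : 0 < p := by linarith
  have hK2pos : (0 : ℝ) < (K : ℝ) + 2 := by positivity
  rw [← Real.mul_rpow (by positivity) hk0.le]
  have hl0 : 0 ≤ Real.log ((K : ℝ) + 2) := Real.log_nonneg (by linarith [(Nat.cast_nonneg K : (0:ℝ) ≤ K)])
  apply Real.rpow_le_rpow (by linarith) _ hCL.le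
  have h1 : Real.log ((K : ℝ) + 2) ≤ Cx * Real.log (6 * p) := by
    rw [← Real.log_rpow (by positivity)]
    exact Real.log_le_log hK2pos hK2
  have h2 : Real.log (6 * p) ≤ 2 + k := by
    rw [Real.log_mul (by norm_num) hp0.ne']
    have h3 : Real.log p ≤ k := by
      rw [Real.log_le_iff_le_exp hp0]; exact hpk
    have h4 : Real.log 6 ≤ 2 := by
      rw [Real.log_le_iff_le_exp (by norm_num)]
      have h5 : Real.exp 2 = Real.exp 1 * Real.exp 1 := by rw [← Real.exp_add]; norm_num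
      have h6 := Real.exp_one_gt_d9
      rw [h5]; nlinarith
    linarith
  have h3 : Cx * Real.log (6 * p) ≤ Cx * (2 + k) := by gcongr
  have h4 : Cx * 1 ≤ Cx * k := by gcongr
  nlinarith

theorem fin_B2 {Cx CL q p : ℝ} {K : ℕ} (hCL : 0 < CL) (hq : 2 < q)
    (hqe : Cx * (CL * (q - 2)) ≤ 1 / 16) (hp1 : 1 ≤ p) (hK2 : (K : ℝ) + 2 ≤ (6 * p) ^ Cx) :
    ((K : ℝ) + 2) ^ (CL * (q - 2)) ≤ 2 * p ^ (1 / 16 : ℝ) := by
  have hp0 : 0 < p := by linarith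
  have hK2pos : (0 : ℝ) < (K : ℝ) + 2 := by positivity
  have he0 : 0 ≤ CL * (q - 2) := by
    have : 0 < q - 2 := by linarith
    positivity
  calc ((K : ℝ) + 2) ^ (CL * (q - 2)) ≤ ((6 * p) ^ Cx) ^ (CL * (q - 2)) := Real.rpow_le_rpow hK2pos.le hK2 he0
    _ = (6 * p) ^ (Cx * (CL * (q - 2))) := by rw [← Real.rpow_mul (by positivity)]
    _ ≤ (6 * p) ^ (1 / 16 : ℝ) := Real.rpow_le_rpow_of_exponent_le (by linarith) hqe
    _ = 6 ^ (1 / 16 : ℝ) * p ^ (1 / 16 : ℝ) := Real.mul_rpow (by norm_num) hp0.le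
    _ ≤ 2 * p ^ (1 / 16 : ℝ) := by
        gcongr
        calc (6 : ℝ) ^ (1 / 16 : ℝ) ≤ (2 ^ (16 : ℝ)) ^ (1 / 16 : ℝ) := by
              apply Real.rpow_le_rpow (by norm_num) _ (by norm_num)
              norm_num
          _ = 2 := by rw [← Real.rpow_mul (by norm_num)]; norm_num

theorem fin_B4 {kx G : ℝ} {Ntr nL : ℕ} (hG : 1 ≤ G) (hNtr : (Ntr : ℝ) ≤ G) (hnL1 : 1 ≤ nL) (hnL : (nL : ℝ) ≤ kx) :
    (1 / (16 * (nL : ℝ)) / (100 * ((Ntr : ℝ) + 1)))⁻¹ ≤ 3200 * G * kx := by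
  have hnLr : (1 : ℝ) ≤ nL := by exact_mod_cast hnL1
  have : (1 / (16 * (nL : ℝ)) / (100 * ((Ntr : ℝ) + 1)))⁻¹ = 1600 * ((Ntr : ℝ) + 1) * nL := by
    field_simp; ring
  rw [this]
  have h1 : (Ntr : ℝ) + 1 ≤ 2 * G := by linarith
  calc 1600 * ((Ntr : ℝ) + 1) * nL ≤ 1600 * (2 * G) * kx := by gcongr
    _ = _ := by ring

theorem fin_B3 {kx G M0 e : ℝ} {Na Nb : ℕ} (hkx1 : 1 ≤ kx) (hG : 1 ≤ G) (hNa : (Na : ℝ) ≤ G) (hNb : (Nb : ℝ) ≤ G)
    (hM00 : 0 ≤ M0) (hM0 : Real.log M0 ≤ kx) (he : 0 < e) (hB4 : e⁻¹ ≤ 3200 * G * kx) :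
    1 + Real.log (2 + 2 * M0 * Na * Nb / e) ≤ 6404 * G ^ 3 * kx := by
  have hG0 : 0 < G := by linarith
  have hM0e : M0 ≤ Real.exp kx := by
    rcases hM00.eq_or_lt with h | h
    · rw [← h]; exact (Real.exp_pos _).le
    · rw [← Real.log_le_iff_le_exp h]; exact hM0
  have e2 : 1 ≤ G ^ 3 := one_le_pow₀ hG
  have e3 : 1 ≤ G ^ 3 * kx := by
    calc (1:ℝ) = 1 * 1 := by norm_num
      _ ≤ _ := by gcongr
  have e4 : kx ≤ G ^ 3 * kx := by
    calc kx = 1 * kx := (one_mul _).symm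
      _ ≤ _ := by gcongr
  have hx : 2 + 2 * M0 * Na * Nb / e ≤ Real.exp kx * (6402 * G ^ 3 * kx) := by
    rw [div_eq_mul_inv]
    have h1 : 2 * M0 * Na * Nb * e⁻¹ ≤ 2 * Real.exp kx * G * G * (3200 * G * kx) := by gcongr
    have h2 : 1 ≤ Real.exp kx * (G ^ 3 * kx) := by
      have e1 : 1 ≤ Real.exp kx := Real.one_le_exp (by linarith)
      calc (1:ℝ) = 1 * 1 := by norm_num
        _ ≤ _ := by gcongr
    have h3 : 2 * Real.exp kx * G * G * (3200 * G * kx) = 6400 * (Real.exp kx * (G ^ 3 * kx)) := by ring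
    have h4 : Real.exp kx * (6402 * G ^ 3 * kx) = 6402 * (Real.exp kx * (G ^ 3 * kx)) := by ring
    rw [h4]; rw [h3] at h1; linarith
  have hpos : 0 < 2 + 2 * M0 * Na * Nb / e := by positivity
  have h3 : Real.log (2 + 2 * M0 * Na * Nb / e) ≤ kx + 6402 * (G ^ 3 * kx) := by
    calc _ ≤ Real.log (Real.exp kx * (6402 * G ^ 3 * kx)) := Real.log_le_log hpos hx
      _ = kx + Real.log (6402 * G ^ 3 * kx) := by
          rw [Real.log_mul (Real.exp_pos _).ne' (by positivity), Real.log_exp]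
      _ ≤ kx + 6402 * G ^ 3 * kx := by
          gcongr
          exact Real.log_le_self (by positivity)
      _ = _ := by ring
  have h5 : 6404 * G ^ 3 * kx = 6404 * (G ^ 3 * kx) := by ring
  rw [h5]; linarith

theorem fin_near_le {Cx CL CqL q CN k p G Ea Eb cc M0 : ℝ} {K Ntr Na Nb nL : ℕ}
    (hCx : 1 ≤ Cx) (hCL : 0 < CL) (hCqL : 0 < CqL) (hCN : 0 ≤ CN) (hq : 2 < q) (hqe : Cx * (CL * (q - 2)) ≤ 1 / 16)
    (hk : 1 ≤ k) (hp : 1 + k ≤ p) (hpk : p ≤ Real.exp k) (hK : (K : ℝ) ≤ (1 + k + p) ^ Cx) (hG : 1 ≤ G)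
    (hNtr : (Ntr : ℝ) ≤ G) (hNa : (Na : ℝ) ≤ G) (hNb : (Nb : ℝ) ≤ G)
    (_hEa0 : 0 ≤ Ea) (hEa : Ea ≤ p * G) (hEb0 : 0 ≤ Eb) (hEb : Eb ≤ G) (hcc0 : 0 ≤ cc) (hcc : cc ≤ G)
    (hM00 : 0 ≤ M0) (hM0 : Real.log M0 ≤ k ^ Cx) (hnL1 : 1 ≤ nL) (hnL : (nL : ℝ) ≤ k ^ Cx) :
    6 * (Ntr : ℝ) * (2 / p) * nearAbs CL CqL q CN K Na Nb Ea Eb cc M0 (1 / (16 * (nL : ℝ)) / (100 * ((Ntr : ℝ) + 1)))
      ≤ (1 + CN) * CqL * (p ^ (-(7 / 16) : ℝ)) *
          (491827200 * (4 * Cx) ^ CL * (k ^ CL * k ^ Cx * k ^ Cx) * G ^ 12) := by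
  have hk0 : 0 < k := by linarith
  have hp1 : 1 ≤ p := by linarith
  have hp0 : 0 < p := by linarith
  have hG0 : 0 < G := by linarith
  have hCx0 : 0 < Cx := by linarith
  have hkx1 : 1 ≤ k ^ Cx := Real.one_le_rpow hk hCx0.le
  have hnLr : (1 : ℝ) ≤ nL := by exact_mod_cast hnL1
  have hK2 := fin_K2 hCx hk hp hK
  have hB1 := fin_B1 hCx hCL hk hp hpk hK2
  have hB2 := fin_B2 hCL hq hqe hp1 hK2
  have hB4 := fin_B4 hG hNtr hnL1 hnL
  have hε0 : 0 < (1 / (16 * (nL : ℝ)) / (100 * ((Ntr : ℝ) + 1))) := by positivity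
  generalize (1 / (16 * (nL : ℝ)) / (100 * ((Ntr : ℝ) + 1))) = e at hB4 hε0 ⊢
  have hB3 := fin_B3 hkx1 hG hNa hNb hM00 hM0 hε0 hB4
  have hB3pos : 0 ≤ 1 + Real.log (2 + 2 * M0 * Na * Nb / e) := by
    have : 0 ≤ Real.log (2 + 2 * M0 * Na * Nb / e) := by
      apply Real.log_nonneg
      have : 0 ≤ 2 * M0 * Na * Nb / e := by positivity
      linarith
    linarith
  have hsq : Real.sqrt (Ea * Eb) ≤ G * p ^ (1 / 2 : ℝ) := by
    rw [← Real.sqrt_eq_rpow]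
    calc Real.sqrt (Ea * Eb) ≤ Real.sqrt (p * G * G) := Real.sqrt_le_sqrt (by gcongr)
      _ = Real.sqrt (G ^ 2 * p) := by ring_nf
      _ = G * Real.sqrt p := by rw [Real.sqrt_mul (by positivity), Real.sqrt_sq hG0.le]
  have hB1pos : 0 ≤ (1 + Real.log ((K : ℝ) + 2)) ^ CL := by
    apply Real.rpow_nonneg
    have := Real.log_nonneg (show (1:ℝ) ≤ (K:ℝ) + 2 by linarith [(Nat.cast_nonneg K : (0:ℝ) ≤ K)])
    linarith
  unfold nearAbs
  rw [div_eq_mul_inv (1 + Real.log _)]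
  generalize (1 + Real.log (2 + 2 * M0 * Na * Nb / e)) = b3 at hB3 hB3pos ⊢
  generalize (1 + Real.log ((K : ℝ) + 2)) ^ CL = b1 at hB1 hB1pos ⊢
  have hB2pos : 0 ≤ ((K : ℝ) + 2) ^ (CL * (q - 2)) := by positivity
  generalize ((K : ℝ) + 2) ^ (CL * (q - 2)) = b2 at hB2 hB2pos ⊢
  have hsqpos : 0 ≤ Real.sqrt (Ea * Eb) := Real.sqrt_nonneg _
  generalize Real.sqrt (Ea * Eb) = sq at hsq hsqpos ⊢
  calc 6 * (Ntr : ℝ) * (2 / p) * ((1 + CN) * CqL * b1 * b2 * cc ^ 2 * sq * ((Na : ℝ) * Nb) ^ 2 * (b3 * e⁻¹))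
      ≤ 6 * G * (2 / p) * ((1 + CN) * CqL * ((4 * Cx) ^ CL * k ^ CL) * (2 * p ^ (1 / 16 : ℝ)) * G ^ 2 *
          (G * p ^ (1 / 2 : ℝ)) * (G * G) ^ 2 * ((6404 * G ^ 3 * k ^ Cx) * (3200 * G * k ^ Cx))) := by
        gcongr
    _ = (1 + CN) * CqL * (p⁻¹ * p ^ (1 / 16 : ℝ) * p ^ (1 / 2 : ℝ)) *
          (491827200 * (4 * Cx) ^ CL * (k ^ CL * k ^ Cx * k ^ Cx) * G ^ 12) := by ring
    _ = _ := by
        congr 2
        rw [← Real.rpow_neg_one, ← Real.rpow_add hp0, ← Real.rpow_add hp0]; norm_num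

theorem fin_pbase {Cx k : ℝ} {P : ℕ} (hk : 1 ≤ k) (hp : 1 + k ≤ (P : ℝ)) (hG1 : 1 ≤ g0fun Cx k)
    (hG : g0fun Cx k ≤ (P : ℝ)) : 0 ≤ pbase Cx k P ∧ pbase Cx k P ≤ (2 * (P : ℝ)) ^ 2 := by
  unfold pbase
  have hp0 : (0 : ℝ) < P := by linarith
  refine ⟨by positivity, ?_⟩
  calc (1 + k + (P : ℝ)) * g0fun Cx k ≤ (2 * (P : ℝ)) * (2 * (P : ℝ)) := by
        gcongr <;> linarith
    _ = _ := by ring

/-- `(Pi/ε)^CL ≤ (2p)^((2 Cx+1) CL)` -/
theorem fin_poly1 {Cx CL p Pi pb : ℝ} {nL : ℕ} (hCx : 1 ≤ Cx) (hCL : 0 < CL) (hp0 : 0 < p)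
    (hpb0 : 0 ≤ pb) (hpb : pb ≤ (2 * p) ^ 2) (hPi0 : 0 ≤ Pi) (hPi : Pi ≤ pb ^ Cx) (hnL : 16 * (nL : ℝ) ≤ p) :
    (Pi / (1 / (16 * (nL : ℝ)))) ^ CL ≤ (2 * p) ^ ((2 * Cx + 1) * CL) := by
  have h1 : pb ^ Cx ≤ (2 * p) ^ (2 * Cx) := by
    rw [Real.rpow_mul (by positivity)]
    apply Real.rpow_le_rpow hpb0 _ (by linarith)
    rw [show (2:ℝ) = ((2:ℕ):ℝ) by norm_num, Real.rpow_natCast]
    simpa using hpb
  have h2 : Pi / (1 / (16 * (nL : ℝ))) = Pi * (16 * (nL : ℝ)) := by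
    rw [one_div, div_inv_eq_mul]
  rw [h2, Real.rpow_mul (by positivity)]
  apply Real.rpow_le_rpow (by positivity) _ hCL.le
  rw [Real.rpow_add (by positivity), Real.rpow_one]
  have h3 : 16 * (nL : ℝ) ≤ 2 * p := by linarith
  calc Pi * (16 * (nL : ℝ)) ≤ (2 * p) ^ (2 * Cx) * (2 * p) := by
        gcongr
        exact hPi.trans h1

/-- `(pb/(ε/100))^Cx ≤ 100^Cx (2p)^(3 Cx)` -/
theorem fin_poly2 {Cx p pb : ℝ} {nL : ℕ} (hCx : 1 ≤ Cx) (hp0 : 0 < p) (hpb0 : 0 ≤ pb) (hpb : pb ≤ (2 * p) ^ 2)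
    (hnL : 16 * (nL : ℝ) ≤ p) :
    (pb / (1 / (16 * (nL : ℝ)) / 100)) ^ Cx ≤ 100 ^ Cx * (2 * p) ^ (3 * Cx) := by
  have h2 : pb / (1 / (16 * (nL : ℝ)) / 100) = pb * (100 * (16 * (nL : ℝ))) := by
    rw [one_div, div_div_eq_mul_div, div_inv_eq_mul]; ring
  rw [h2, Real.rpow_mul (by positivity), ← Real.mul_rpow (by norm_num) (by positivity)]
  apply Real.rpow_le_rpow (by positivity) _ (by linarith)
  have h3 : ((2 * p) ^ (3 : ℝ)) = (2 * p) ^ 3 := by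
    rw [show (3:ℝ) = ((3:ℕ):ℝ) by norm_num, Real.rpow_natCast]
  rw [h3]
  have h4 : 16 * (nL : ℝ) ≤ 2 * p := by linarith
  calc pb * (100 * (16 * (nL : ℝ))) ≤ (2 * p) ^ 2 * (100 * (2 * p)) :=
        mul_le_mul hpb (mul_le_mul_of_nonneg_left h4 (by norm_num)) (by positivity) (by positivity)
    _ = 100 * (2 * p) ^ 3 := by ring

/-- the final linear combination -/
theorem fin_lin {ek nl CL A1 η CN CqL pn ovh ηp c2 A2 E F : ℝ} (hCL : 0 < CL) (hCqL : 0 < CqL) (hCN : 0 ≤ CN)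
    (hc20 : 0 < c2) (hE0 : 0 < E) (hF0 : 0 < F) (hek : ek ≤ E)
    (t1 : (nl * A1) * η ≤ F * E) (t2 : nl * η ≤ F * E) (t3 : ηp * (nl * A1) ≤ F * E) (t4 : ηp * (nl * A2) ≤ F * E)
    (t5 : nl * (pn * ovh) ≤ E) :
    (ek + nl * (CL * A1 * (3 * η) + (1 + CN) * CqL * pn * ovh + 5 * η)) + ηp * (nl * (CL * A1 + 5 * (c2 * A2)))
      ≤ 3 / 4 * (4 / 3 * (1 + CqL + (4 * CL + 5 + 5 * c2) * F) * E * (1 + CN)) := by
  have hFE : 0 < F * E := by positivity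
  calc (ek + nl * (CL * A1 * (3 * η) + (1 + CN) * CqL * pn * ovh + 5 * η)) + ηp * (nl * (CL * A1 + 5 * (c2 * A2)))
      = ek + 3 * CL * ((nl * A1) * η) + (1 + CN) * CqL * (nl * (pn * ovh)) + 5 * (nl * η)
          + CL * (ηp * (nl * A1)) + 5 * c2 * (ηp * (nl * A2)) := by ring
    _ ≤ E + 3 * CL * (F * E) + (1 + CN) * CqL * E + 5 * (F * E) + CL * (F * E) + 5 * c2 * (F * E) := by
        gcongr
    _ ≤ (1 + CN) * (E + 3 * CL * (F * E) + CqL * E + 5 * (F * E) + CL * (F * E) + 5 * c2 * (F * E)) := by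
        have h0 : 0 ≤ E + 3 * CL * (F * E) + 5 * (F * E) + CL * (F * E) + 5 * c2 * (F * E) := by positivity
        have h1 := mul_nonneg hCN h0
        linarith
    _ = _ := by ring

theorem fin_W {x α C' p : ℝ} (hC'0 : 0 ≤ C') (hp0 : 0 < p) (hpT : p ≤ 2 * Real.exp (α * x)) :
    (2 * p) ^ C' ≤ 4 ^ C' * Real.exp (α * C' * x) := by
  calc (2 * p) ^ C' ≤ (4 * Real.exp (α * x)) ^ C' := Real.rpow_le_rpow (by positivity) (by linarith) hC'0
    _ = 4 ^ C' * Real.exp (α * x) ^ C' := Real.mul_rpow (by norm_num) (Real.exp_pos _).le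
    _ = _ := by rw [← Real.exp_mul]; congr 2; ring

theorem fin_nearE {x α cs p nl kx ovh : ℝ} (hx : 0 ≤ x) (hcs2 : cs ≤ 3 * α / 8)
    (hTp : Real.exp (α * x) ≤ p) (hnl : nl ≤ kx) (hovh0 : 0 ≤ ovh)
    (hovh : kx * ovh ≤ Real.exp (α / 16 * x)) :
    nl * (p ^ (-(7 / 16) : ℝ) * ovh) ≤ Real.exp (-(cs * x)) := by
  have hp0 : 0 < p := lt_of_lt_of_le (Real.exp_pos _) hTp
  have h1 : nl * ovh ≤ p ^ (1 / 16 : ℝ) := by
    calc nl * ovh ≤ kx * ovh := by gcongr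
      _ ≤ Real.exp (α / 16 * x) := hovh
      _ = Real.exp (α * x) ^ (1 / 16 : ℝ) := by rw [← Real.exp_mul]; congr 1; ring
      _ ≤ p ^ (1 / 16 : ℝ) := Real.rpow_le_rpow (Real.exp_pos _).le hTp (by norm_num)
  calc nl * (p ^ (-(7 / 16) : ℝ) * ovh) = p ^ (-(7 / 16) : ℝ) * (nl * ovh) := by ring
    _ ≤ p ^ (-(7 / 16) : ℝ) * p ^ (1 / 16 : ℝ) := by gcongr
    _ = p ^ (-(3 / 8) : ℝ) := by rw [← Real.rpow_add hp0]; norm_num
    _ ≤ Real.exp (α * x) ^ (-(3 / 8) : ℝ) :=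
        Real.rpow_le_rpow_of_nonpos (Real.exp_pos _) hTp (by norm_num)
    _ = Real.exp (-(3 * α / 8 * x)) := by rw [← Real.exp_mul]; congr 1; ring
    _ ≤ _ := by
        apply Real.exp_le_exp.2
        have := mul_le_mul_of_nonneg_right hcs2 hx
        linarith

theorem fin_total {x α cs pw a1 a2 c2 CL CqL CN C' p nl kx ovh ek : ℝ}
    (hx : 0 ≤ x) (hα : 0 < α) (hcs1 : cs + α * C' ≤ 1 - pw) (hcs2 : cs ≤ 3 * α / 8) (hpw : 0 ≤ pw)
    (hc2 : 0 < c2) (hCL : 0 < CL) (hCqL : 0 < CqL) (hCN : 0 ≤ CN)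
    (hC0 : 1 ≤ C') (hC1 : a1 + 1 ≤ C') (hC2 : a2 + 1 ≤ C')
    (hTp : Real.exp (α * x) ≤ p) (hpT : p ≤ 2 * Real.exp (α * x))
    (hnl : nl ≤ kx) (hkxp : kx ≤ p) (hovh0 : 0 ≤ ovh)
    (hovh : kx * ovh ≤ Real.exp (α / 16 * x)) (hek : ek ≤ Real.exp (-x)) :
    (ek + nl * (CL * (2 * p) ^ a1 * (3 * Real.exp (-x)) + (1 + CN) * CqL * p ^ (-(7 / 16) : ℝ) * ovh
          + 5 * Real.exp (-x)))
      + Real.exp (-x) ^ (1 - pw) * (nl * (CL * (2 * p) ^ a1 + 5 * (c2 * (2 * p) ^ a2)))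
      ≤ 3 / 4 * (4 / 3 * (1 + CqL + (4 * CL + 5 + 5 * c2) * 4 ^ C') * Real.exp (-x) ^ cs * (1 + CN)) := by
  have hT1 : 1 ≤ Real.exp (α * x) := Real.one_le_exp (by positivity)
  have hp1 : 1 ≤ p := hT1.trans hTp
  have hp0 : 0 < p := by linarith
  have h2p1 : 1 ≤ 2 * p := by linarith
  have h2p0 : 0 < 2 * p := by linarith
  have hC'0 : 0 ≤ C' := by linarith
  have hαC : 0 ≤ α * C' := by positivity
  have hE : Real.exp (-x) ^ cs = Real.exp (-(cs * x)) := by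
    rw [← Real.exp_mul]; congr 1; ring
  have hpwr : Real.exp (-x) ^ (1 - pw) = Real.exp (-((1 - pw) * x)) := by
    rw [← Real.exp_mul]; congr 1; ring
  have hF0 : (0:ℝ) < 4 ^ C' := by positivity
  have hW := fin_W (x := x) (α := α) hC'0 hp0 hpT
  have hnl2p : nl ≤ 2 * p := by linarith
  have hA : ∀ a : ℝ, a + 1 ≤ C' → nl * (2 * p) ^ a ≤ (2 * p) ^ C' := by
    intro a ha
    calc nl * (2 * p) ^ a ≤ (2 * p) * (2 * p) ^ a := by gcongr
      _ = (2 * p) ^ (1 + a) := by rw [Real.rpow_add h2p0, Real.rpow_one]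
      _ ≤ (2 * p) ^ C' := Real.rpow_le_rpow_of_exponent_le h2p1 (by linarith)
  have hA1 := hA _ hC1
  have hA2 := hA _ hC2
  have hA3 : nl ≤ (2 * p) ^ C' := by
    have := hA 0 (by linarith)
    simpa using this
  have hxx := mul_le_mul_of_nonneg_right hcs1 hx
  have hpx := mul_nonneg hpw hx
  have hWη : (2 * p) ^ C' * Real.exp (-x) ≤ 4 ^ C' * Real.exp (-(cs * x)) := by
    calc (2 * p) ^ C' * Real.exp (-x) ≤ 4 ^ C' * Real.exp (α * C' * x) * Real.exp (-x) := by gcongr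
      _ = 4 ^ C' * Real.exp (α * C' * x + -x) := by rw [mul_assoc, ← Real.exp_add]
      _ ≤ _ := by
          apply mul_le_mul_of_nonneg_left (Real.exp_le_exp.2 _) hF0.le
          linarith
  have hWp : Real.exp (-((1 - pw) * x)) * (2 * p) ^ C' ≤ 4 ^ C' * Real.exp (-(cs * x)) := by
    calc Real.exp (-((1 - pw) * x)) * (2 * p) ^ C'
        ≤ Real.exp (-((1 - pw) * x)) * (4 ^ C' * Real.exp (α * C' * x)) := by gcongr
      _ = 4 ^ C' * Real.exp (-((1 - pw) * x) + α * C' * x) := by rw [Real.exp_add]; ring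
      _ ≤ _ := by
          apply mul_le_mul_of_nonneg_left (Real.exp_le_exp.2 _) hF0.le
          linarith
  have hnear := fin_nearE hx hcs2 hTp hnl hovh0 hovh
  have hη : Real.exp (-x) ≤ Real.exp (-(cs * x)) := by
    apply Real.exp_le_exp.2
    have : α * C' * x ≥ 0 := by positivity
    linarith
  rw [hE, hpwr]
  have hη0 : 0 < Real.exp (-x) := Real.exp_pos _
  have hηp0 : 0 < Real.exp (-((1 - pw) * x)) := Real.exp_pos _
  exact fin_lin hCL hCqL hCN hc2 (Real.exp_pos _) hF0 (hek.trans hη)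
    (le_trans (by gcongr) hWη) (le_trans (by gcongr) hWη) (le_trans (by gcongr) hWp) (le_trans (by gcongr) hWp) hnear

theorem fin_retained_union (a b : Finset Cell) (I : Cell) :
    Retained (a ∪ b) I ↔ Retained a I ∧ Retained b I := by
  unfold Retained
  constructor
  · intro h
    exact ⟨fun S hS => h S (Finset.mem_union_left _ hS), fun S hS => h S (Finset.mem_union_right _ hS)⟩
  · rintro ⟨h1, h2⟩ S hS
    rcases Finset.mem_union.1 hS with h | h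
    · exact h1 S h
    · exact h2 S h

theorem fin_stop_union {R : Cell} {a b : Finset Cell} {ε1 ε2 ε : ℝ} (ha : StopSet R a ε1) (hb : StopSet R b ε2)
    (h : ε1 + ε2 ≤ ε) : StopSet R (a ∪ b) ε := by
  refine ⟨?_, ?_⟩
  · intro S hS
    rcases Finset.mem_union.1 hS with h | h
    · exact ha.le S h
    · exact hb.le S h
  · have h1 : ∑ S ∈ a ∪ b, S.len ≤ ∑ S ∈ a, S.len + ∑ S ∈ b, S.len := by
      rw [← Finset.sum_union_inter]
      have : 0 ≤ ∑ S ∈ a ∩ b, S.len := Finset.sum_nonneg fun S _ => cell_len_nonneg S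
      linarith
    have h2 := ha.len
    have h3 := hb.len
    have h4 : (ε1 + ε2) * R.len ≤ ε * R.len := by
      have := cell_len_nonneg R
      gcongr
    linarith

theorem fin_glue {R : Cell} {S stops0 : Finset Cell} {nL : ℕ} (leaf : Fin nL → Cell → ℝ) (t terr : Cell → ℝ)
    {XA XP pw ε η ek : ℝ} (hst0 : StopSet R stops0 (1 / 16))
    (hleaf : ∀ κ, Ctrl R (S.filter (Retained stops0)) (leaf κ) XA XP pw ε)
    (hε : nL * ε ≤ 1 / 16) (hterr0 : ∀ I, 0 ≤ terr I)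
    (hterr : ∑ I ∈ S.filter (Retained stops0), I.len * terr I ≤ ek * R.len)
    (ht : ∀ I, t I ≤ terr I + ∑ κ, leaf κ I) (hpw0 : 0 < pw) (hpw1 : pw ≤ 1) (hη : 0 < η) :
    ∃ stops : Finset Cell, StopSet R stops (1 / 4) ∧
      ∑ I ∈ S.filter (Retained stops), I.len * min η (t I) ≤ ((ek + nL * XA) + η ^ (1 - pw) * (nL * XP)) * R.len := by
  have h1 := Ctrl.sum (R := R) (cells := S.filter (Retained stops0)) Finset.univ leaf (fun _ => XA) (fun _ => XP)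
    (fun _ => ε) pw hpw0 hpw1 (fun κ _ => hleaf κ)
  have h2 : Ctrl R (S.filter (Retained stops0)) terr ek 0 pw 0 := Ctrl.of_abs hterr0 hterr hpw0
  have h3 := Ctrl.sum (R := R) (cells := S.filter (Retained stops0)) (Finset.univ : Finset Bool)
    (fun b => if b then terr else fun I => ∑ κ, leaf κ I) (fun b => if b then ek else ∑ _κ : Fin nL, XA)
    (fun b => if b then 0 else ∑ _κ : Fin nL, XP) (fun b => if b then 0 else ∑ _κ : Fin nL, ε) pw hpw0 hpw1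
    (by
      intro b _
      cases b
      · simpa using h1
      · simpa using h2)
  simp only [Fintype.sum_bool, if_true, Bool.false_eq_true, if_false, Finset.sum_const, Finset.card_univ,
    Fintype.card_fin, nsmul_eq_mul, zero_add] at h3
  have h4 : Ctrl R (S.filter (Retained stops0)) t (ek + nL * XA) (nL * XP) pw (1 / 16) :=
    h3.mono (fun I _ => ht I) le_rfl le_rfl hε
  obtain ⟨stops1, hs1, hb⟩ := h4.min_bound hpw0 hpw1 hη
  refine ⟨stops0 ∪ stops1, fin_stop_union hst0 hs1 (by norm_num), ?_⟩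
  have hf : S.filter (Retained (stops0 ∪ stops1)) = (S.filter (Retained stops0)).filter (Retained stops1) := by
    ext I
    simp only [Finset.mem_filter, fin_retained_union, and_assoc]
  rw [hf]
  exact hb

/-- all the facts "for `k` large" -/
theorem fin_large (θ α Cx CL : ℝ) (hθ : 0 < θ) (hθ1 : θ < 1) (hα : 0 < α) (hα1 : α ≤ 1) (hCx : 1 ≤ Cx) :
    ∃ k0 : ℝ, ∀ k : ℝ, k0 ≤ k → 1 ≤ k ∧ 1 + k ≤ Real.exp (α * k ^ θ) ∧ 16 * k ^ Cx ≤ Real.exp (α * k ^ θ) ∧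
      2 * Real.exp (α * k ^ θ) ≤ Real.exp k ∧ g0fun Cx k ≤ Real.exp (α * k ^ θ) ∧
      k ^ Cx * (491827200 * (4 * Cx) ^ CL * (k ^ CL * k ^ Cx * k ^ Cx) * g0fun Cx k ^ 12) ≤ Real.exp (α / 16 * k ^ θ) := by
  have hCx0 : 0 ≤ Cx := by linarith
  have e1 := fin_asym θ α 2 1 0 Cx hθ hα le_rfl hCx0
  have e2 := fin_asym θ α 16 Cx 0 Cx hθ hα le_rfl hCx0
  have e3 := fin_asym θ (α / 16) (491827200 * (4 * Cx) ^ CL) (CL + 3 * Cx) 12 Cx hθ (by positivity) (by norm_num) hCx0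
  have e4 : ∀ᶠ k : ℝ in Filter.atTop, 2 ≤ k ^ (1 - θ) :=
    (tendsto_rpow_atTop (by linarith : 0 < 1 - θ)).eventually_ge_atTop 2
  have e5 : ∀ᶠ k : ℝ in Filter.atTop, 2 ≤ k := Filter.eventually_ge_atTop 2
  have e6 := fin_asym θ α 1 0 1 Cx hθ hα zero_le_one hCx0
  obtain ⟨k0, hk0⟩ := Filter.eventually_atTop.1 (e1.and (e2.and (e3.and (e4.and (e5.and e6)))))
  refine ⟨k0, fun k hk => ?_⟩
  obtain ⟨h1, h2, h3, h4, h5, h6'⟩ := hk0 k hk
  have hkpos : 0 < k := by linarith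
  refine ⟨by linarith, ?_, ?_, ?_, by simpa using h6', ?_⟩
  · rw [Real.rpow_one, Real.rpow_zero, mul_one] at h1
    linarith
  · rw [Real.rpow_zero, mul_one] at h2
    exact h2
  · have hkk : k = k ^ θ * k ^ (1 - θ) := by
      rw [← Real.rpow_add hkpos]; simp
    have hkθ : 0 ≤ k ^ θ := Real.rpow_nonneg hkpos.le _
    have h6 : k ^ θ * 2 ≤ k := by
      calc k ^ θ * 2 ≤ k ^ θ * k ^ (1 - θ) := by gcongr
        _ = k := hkk.symm
    have h7 : α * k ^ θ ≤ 1 * k ^ θ := by gcongr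
    have h8 : (2 : ℝ) ≤ Real.exp 1 := by
      have := Real.add_one_le_exp (1 : ℝ); linarith
    calc 2 * Real.exp (α * k ^ θ) ≤ Real.exp 1 * Real.exp (α * k ^ θ) := by gcongr
      _ = Real.exp (1 + α * k ^ θ) := by rw [Real.exp_add]
      _ ≤ Real.exp k := Real.exp_le_exp.2 (by linarith)
  · refine le_trans (le_of_eq ?_) h3
    have h9 : k ^ (CL + 3 * Cx) = k ^ CL * k ^ Cx * k ^ Cx * k ^ Cx := by
      rw [← Real.rpow_add hkpos, ← Real.rpow_add hkpos, ← Real.rpow_add hkpos]; congr 1; ring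
    have h10 : g0fun Cx k ^ (12 : ℝ) = g0fun Cx k ^ 12 := by
      rw [show (12 : ℝ) = ((12 : ℕ) : ℝ) by norm_num, Real.rpow_natCast]
    rw [h9, h10]; ring

theorem fin_one_le_g0 {C k : ℝ} (hC : 0 ≤ C) (hk : 1 ≤ k) : 1 ≤ g0fun C k := by
  apply Real.one_le_exp
  have : 0 ≤ Real.log (2 * k) := Real.log_nonneg (by linarith)
  have h2 : 0 ≤ (1 + Real.log (2 * k)) ^ C := Real.rpow_nonneg (by linarith) _
  positivity

/-- **Secs. 10.2-10.3.**  LEAF P-S10-FIN -/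
theorem oneAttempt_of_attempt (c0 C0 : ℝ) (hA : AttemptGoal c0 C0) (hL : LeafGoal c0 C0) :
    ∀ θ Cb : ℝ, 0 < θ → θ < 1 → 1 ≤ Cb →
      ∃ q : ℝ, 2 < q ∧ q < 3 ∧ ∃ cs Cq kmin : ℝ, 0 < cs ∧ 0 ≤ Cq ∧ OneAttempt c0 C0 q θ Cb cs Cq kmin := by
  intro θ Cb h0 h1 hCb
  obtain ⟨Cx, pw, hCx, hpw23, hpw1, hA'⟩ := hA θ Cb h0 h1 hCb
  obtain ⟨CL, hCL, hL'⟩ := hL
  have hCx0 : 0 < Cx := by linarith
  have hpw0 : 0 < pw := by linarith
  -- the exponent `q`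
  obtain ⟨dq, hdq0, hdq1, hdq2⟩ : ∃ dq : ℝ, 0 < dq ∧ dq ≤ 1 / 2 ∧ Cx * (CL * dq) ≤ 1 / 16 := by
    refine ⟨min (1 / 2) (1 / (16 * Cx * CL)), lt_min (by norm_num) (by positivity), min_le_left _ _, ?_⟩
    have : min (1 / 2) (1 / (16 * Cx * CL)) ≤ 1 / (16 * Cx * CL) := min_le_right _ _
    calc Cx * (CL * min (1 / 2) (1 / (16 * Cx * CL))) ≤ Cx * (CL * (1 / (16 * Cx * CL))) := by gcongr
      _ = 1 / 16 := by field_simp
  have hq2 : 2 < 2 + dq := by linarith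
  have hq3 : 2 + dq < 3 := by linarith
  obtain ⟨CqL, hCqL, hL''⟩ := hL' (2 + dq) hq2 hq3
  obtain ⟨kA, hkA1, hA''⟩ := hA' 1 (by norm_num)
  -- the parameters
  obtain ⟨C', hC1, hC2⟩ : ∃ C' : ℝ, (2 * Cx + 1) * CL + 1 ≤ C' ∧ 3 * Cx + 1 ≤ C' :=
    ⟨4 * (Cx + 1) * (CL + 1), by nlinarith, by nlinarith⟩
  have hC'0 : 0 < C' := by linarith
  obtain ⟨α, hα0, hα1, hα2⟩ : ∃ α : ℝ, 0 < α ∧ α ≤ 1 ∧ α * C' ≤ (1 - pw) / 2 := by
    refine ⟨min 1 ((1 - pw) / (2 * C')), lt_min one_pos (div_pos (by linarith) (by positivity)), min_le_left _ _, ?_⟩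
    calc min 1 ((1 - pw) / (2 * C')) * C' ≤ (1 - pw) / (2 * C') * C' := by
          gcongr; exact min_le_right _ _
      _ = (1 - pw) / 2 := by field_simp
  obtain ⟨cs, hcs0, hcs2, hcs3⟩ : ∃ cs : ℝ, 0 < cs ∧ cs ≤ 3 * α / 8 ∧ cs ≤ (1 - pw) / 2 :=
    ⟨min (3 * α / 8) ((1 - pw) / 2), lt_min (by positivity) (by linarith), min_le_left _ _, min_le_right _ _⟩
  obtain ⟨k0, hk0⟩ := fin_large θ α Cx CL h0 h1 hα0 hα1 hCx
  refine ⟨2 + dq, hq2, hq3, cs, 4 / 3 * (1 + CqL + (4 * CL + 5 + 5 * 100 ^ Cx) * 4 ^ C'), max kA k0, hcs0,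
    by positivity, ?_⟩
  intro k hk X hX N CN s0 hCN hLB hdepth pat hpat
  have hkA : kA ≤ k := le_trans (le_max_left _ _) hk
  obtain ⟨hk1, hK2, hK3, hK4, hK6, hK5⟩ := hk0 k (le_trans (le_max_right _ _) hk)
  have hkpos : 0 < k := by linarith
  have hx : 0 ≤ k ^ θ := Real.rpow_nonneg hkpos.le _
  have hT1 : 1 ≤ Real.exp (α * k ^ θ) := Real.one_le_exp (by positivity)
  obtain ⟨P, hTp, hpT⟩ : ∃ P : ℕ, Real.exp (α * k ^ θ) ≤ P ∧ (P : ℝ) ≤ 2 * Real.exp (α * k ^ θ) := by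
    refine ⟨⌈Real.exp (α * k ^ θ)⌉₊, Nat.le_ceil _, ?_⟩
    have := Nat.ceil_lt_add_one (Real.exp_pos (α * k ^ θ)).le
    linarith
  have hP1 : 1 ≤ P := by exact_mod_cast hT1.trans hTp
  have hPk : (P : ℝ) ≤ Real.exp k := hpT.trans hK4
  have hp : 1 + k ≤ (P : ℝ) := hK2.trans hTp
  have hkx0 : 0 ≤ k ^ Cx := Real.rpow_nonneg hkpos.le _
  have hG : 1 ≤ g0fun Cx k := fin_one_le_g0 hCx0.le hk1
  have hkθ : k ^ θ ≤ k := by
    calc k ^ θ ≤ k ^ (1 : ℝ) := Real.rpow_le_rpow_of_exponent_le hk1 h1.le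
      _ = k := Real.rpow_one k
  have hek : Real.exp (-k) ≤ Real.exp (-(k ^ θ)) := Real.exp_le_exp.2 (by linarith)
  obtain ⟨stops0, nL, Y, hst0, hnL, hY, hloc⟩ := hA'' k (2 + dq) hkA hq2 hq3 X hX pat hpat P hP1 hPk
  obtain ⟨hpb0, hpb⟩ := fin_pbase hk1 hp hG (hK6.trans hTp)
  have hp0 : (0 : ℝ) < P := by linarith
  have hnLp : 16 * (nL : ℝ) ≤ P := by
    calc 16 * (nL : ℝ) ≤ 16 * k ^ Cx := by gcongr
      _ ≤ _ := hK3.trans hTp
  have hleaf : ∀ κ, Ctrl X.root (X.S.filter (Retained stops0)) (Y κ).leaf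
      (CL * (2 * (P : ℝ)) ^ ((2 * Cx + 1) * CL) * (3 * Real.exp (-(k ^ θ)))
        + (1 + CN) * CqL * (P : ℝ) ^ (-(7 / 16) : ℝ) *
            (491827200 * (4 * Cx) ^ CL * (k ^ CL * k ^ Cx * k ^ Cx) * g0fun Cx k ^ 12)
        + 5 * Real.exp (-(k ^ θ)))
      (CL * (2 * (P : ℝ)) ^ ((2 * Cx + 1) * CL) + 5 * (100 ^ Cx * (2 * (P : ℝ)) ^ (3 * Cx))) pw (1 / (16 * (nL : ℝ))) := by
    intro κ
    have hnL1 : 1 ≤ nL := Nat.one_le_of_lt κ.2
    have hnLr : (1 : ℝ) ≤ nL := by exact_mod_cast hnL1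
    obtain ⟨Ntr, Na, Nb, Ea, Eb, Pi, cc, M0, far, small, hR, hcells, hw, hPP, hK, hV, hcore, hNtr, hNa, hNb, hEa, hEb,
      hcc, hM0, hPi, hfar, hsmall⟩ := hY κ
    rw [one_mul] at hfar hsmall
    have hε0 : 0 < 1 / (16 * (nL : ℝ)) := by positivity
    have hε1 : 1 / (16 * (nL : ℝ)) < 1 := by
      rw [div_lt_one (by positivity)]; linarith
    have hc := hL'' N CN s0 hCN hLB (Y κ) (Real.exp (-(k ^ θ))) Ntr Na Nb Ea Eb Pi cc M0 far small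
      hV (by rw [hcells]; intro I hI; exact hdepth I (Finset.mem_filter.1 hI).1)
      pw (1 / (16 * (nL : ℝ))) (Real.exp (-k)) ((pbase Cx k P / (1 / (16 * (nL : ℝ)) / 100)) ^ Cx) hpw23 hpw1.le hε0 hε1
      (Real.exp_pos _).le (by positivity)
      (by
        intro c hc
        rw [hR, hcells]
        exact hcore (1 / (16 * (nL : ℝ)) / 100) (by positivity) (by linarith) c hc)
    rw [hR, hcells, hPP] at hc
    have hPi0 : 0 ≤ Pi := by linarith [hV.Pi_ge]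
    have hM00 : 0 ≤ M0 := le_trans (Nat.cast_nonneg _) (hV.mult 0)
    have hpoly1 := fin_poly1 hCx hCL hp0 hpb0 hpb hPi0 hPi hnLp
    refine hc.mono (fun _ _ => le_rfl) ?_ ?_ le_rfl
    · have hnear := fin_near_le (q := 2 + dq) (K := (Y κ).K) (Ntr := Ntr) (Na := Na) (Nb := Nb) (nL := nL)
        (Ea := Ea) (Eb := Eb) (cc := cc) (M0 := M0) (CqL := CqL) (CN := CN)
        hCx hCL hCqL hCN hq2 (by simpa using hdq2) hk1 hp hPk hK hG hNtr hNa hNb hV.pos.2.1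
        hEa hV.pos.2.2.1 hEb hV.pos.1.le hcc hM00 hM0 hnL1 hnL
      have hs : Real.sqrt (M0 * small) + Real.exp (-(k ^ θ)) + far ≤ 3 * Real.exp (-(k ^ θ)) := by
        linarith
      have hs0 : 0 ≤ Real.sqrt (M0 * small) + Real.exp (-(k ^ θ)) + far := by
        have := Real.sqrt_nonneg (M0 * small)
        have := hV.far_nn
        have := Real.exp_pos (-(k ^ θ))
        linarith
      have hA0 : 0 ≤ (Pi / (1 / (16 * (nL : ℝ)))) ^ CL := by positivity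
      gcongr
    · have hpoly2 := fin_poly2 (nL := nL) hCx hp0 hpb0 hpb hnLp
      gcongr
  have hε : (nL : ℝ) * (1 / (16 * (nL : ℝ))) ≤ 1 / 16 := by
    rcases Nat.eq_zero_or_pos nL with h | h
    · subst h; norm_num
    · have : (0 : ℝ) < nL := by exact_mod_cast h
      apply le_of_eq; field_simp
  obtain ⟨stops, hst, hb⟩ := fin_glue (R := X.root) (S := X.S) (stops0 := stops0) (fun κ => (Y κ).leaf)
    (fun I => ‖formV I (X.w I) (X.arg pat I)‖)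
    (fun I => ‖formV I (X.w I) (X.arg pat I) - ∑ κ, gsum (Y κ).uses (Y κ).w (Y κ).Z I‖)
    hst0 hleaf hε (fun I => norm_nonneg _) hloc
    (by
      intro I
      calc ‖formV I (X.w I) (X.arg pat I)‖
          = ‖(formV I (X.w I) (X.arg pat I) - ∑ κ, gsum (Y κ).uses (Y κ).w (Y κ).Z I)
              + ∑ κ, gsum (Y κ).uses (Y κ).w (Y κ).Z I‖ := by rw [sub_add_cancel]
        _ ≤ ‖formV I (X.w I) (X.arg pat I) - ∑ κ, gsum (Y κ).uses (Y κ).w (Y κ).Z I‖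
              + ‖∑ κ, gsum (Y κ).uses (Y κ).w (Y κ).Z I‖ := norm_add_le _ _
        _ ≤ _ := by
            gcongr
            exact norm_sum_le _ _)
    hpw0 hpw1.le (Real.exp_pos (-(k ^ θ)))
  refine ⟨stops, hst, hb.trans ?_⟩
  apply mul_le_mul_of_nonneg_right _ (cell_len_nonneg _)
  exact fin_total hx hα0 (by linarith) hcs2 hpw0.le (by positivity) hCL hCqL hCN (by linarith) hC1 hC2 hTp hpT hnL
    (by linarith [hK3.trans hTp]) (by positivity) hK5 hek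

/-- the top of (T3) -/
theorem coreGoal_of_attempt (c0 C0 : ℝ) (hA : AttemptGoal c0 C0) (hL : LeafGoal c0 C0)
    (hr : ∀ q θ Cb : ℝ, RestrictOk c0 C0 q θ Cb) : CoreGoal c0 C0 := by
  intro θ Cb h0 h1 hCb
  obtain ⟨q, hq2, hq3, cs, Cq, kmin, hcs, hCq, h⟩ := oneAttempt_of_attempt c0 C0 hA hL θ Cb h0 h1 hCb
  exact ⟨q, hq2, hq3, cs, Cq, kmin, hcs, coreEstimate_of_oneAttempt c0 C0 q θ Cb cs Cq kmin hCq (hr q θ Cb) h⟩

end Claimed.Agent.R258
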