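/-
Row 258, Sec. 10.1 (home architect: helper244).  THE CONSTRUCTION OF ONE ATTEMPT:
   LocMainGoal2 + LocHelperGoal (Sec. 6, helper68) + S8AGoal (Sec. 8 layer (A), helper61) + layer (B) (theorems g17, ...) + S9Goal (Sec. 9, helper41)
   + AdpGoal (operator layer of Sec. 7, helper52) + compression (Sec. 3, helper93)      ⟹      AttemptGoal   (S10/Final.lean).

ORDER OF THE CONSTANTS.  Given `θ, Cb`:  `Cn := Cb + 2`;  `Cm` (Sec. 6);  `C8` (Sec. 8);  `Ca` (adapter, absolute);  `Cp` := an exponent with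
`Pi ≤ (pbase Cp k P)^Cp`;  `C9, pw` (Sec. 9);  `Cx := max` of all.  THEN `Cfar` is given:  `C3 := Cfar`, `Csm := 2 Cfar + Cb + 2`;  THEN `kmin`.
ORDER OF THE CONSTRUCTION (Sec. 10.1).
 1. `N0` with `LabFree N0 (X.U l I)` (field `U_lab` of `BaseSeg.Valid`, requested);  `LocMainGoal2` with `ε = 1/16`: `Y, A, stops`;
    `cells := X.S.filter (Retained stops) ⊆ X.S.filter good`.
 2. `S8AGoal`: `d, p, G0, CR, small` and for every leaf `κ ∈ [1, 𝓛]` a mode system `M κ` with `Valid`, `Link`; `g17`.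
 3. bases `I ↦ {(a, (M κ).Sc p (Y.Z κ) a G I) : κ ∈ [1,𝓛], a, G ∈ cur κ I}`: at most `4 𝓛 D ≤ exp (k^Cn) ≤ A.Nb` per cell, `LabFree N1`;
    `LocHelperGoal`: `hc`, `HelpValid`, `TransferGoal` with `far = A.D^(-C3) ≤ exp (-Cfar k)`.
 4. `s3_comprFor` + `hst_bud_M`: `Kap = s3_Kap C (m0+3) Dm`;  `AdpGoal`: `SideSys.Valid` for `sideSysOf Y κ cells (M κ) p`.
 5. `S9Goal`: the core estimate.
 6. Prop. 6.8: `Goal68` restricted to `cells` (nonnegative summands), `leafForm κ I = gsum uses w Z I` (`hst_usesAt`), reindex `Icc 1 𝓛 ≃ Fin 𝓛`.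
 7. numerical bounds: `adpOH ≤ g0fun`, `sqrt (M0 small) ≤ exp (-Cfar k)` (`M0 ≤ Mm D ≤ Dm^(Cb+1)`, `small ≤ Dm^(-Csm)`, `Dm ≥ e^k`), `log M0 ≤ k^Cx`.
-/
import Claimed.Agent.R258.S10.Final
import Claimed.Agent.R258.Pack023
import Claimed.Agent.R258.Pack004
import Claimed.Agent.R258.S8.ALoc

set_option autoImplicit false
open MeasureTheory

namespace Claimed.Agent.R258

open Classical

/-! ## Sec. 6 -/

/-- the conclusions of the main construction of Sec. 6 on one attempt -/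
structure LocSys.MainOk (Y : LocSys LocTag) (A : LocSys.Acc) (c0 C0 q θ Cb k C3 Cm Cn : ℝ) (N0 : ℕ) : Prop where
  valid : Y.Valid A.Dm A.m0
  /-- the base segment is valid with the budgets `A.D`, `A.M` (the ones obtained from `X.Ok`) -/
  xv : ∃ LU : ℝ, 0 ≤ LU ∧ LU ≤ k ^ Cb ∧ Y.X.Valid c0 C0 q (Real.exp (-(k ^ θ))) A.D A.M LU
  M_le : A.M ≤ A.D ^ Cb
  D_le' : A.D ≤ Real.exp (k ^ Cb)
  inner : Y.Inner c0 C0 k C3 A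
  lab : ∀ Φ ∈ Y.cat.cols, 0 < Y.cat.rank Φ.lab → N0 ≤ Φ.lab
  D_ge : Real.exp k ≤ A.D
  D_le : A.D ≤ A.Dm
  Dm_le : A.Dm ≤ Real.exp (k ^ Cm)
  Nb_ge : Real.exp (k ^ Cn) ≤ A.Nb
  L_le : (Y.p.L : ℝ) ≤ k ^ Cm
  m0_le : (A.m0 : ℝ) ≤ Cm * (1 + Real.log k)
  Hpath_le : A.Hpath ≤ Real.exp ((k + Y.p.P) ^ Cm)
  Hpath_ge : 1 ≤ A.Hpath
  g68 : Y.Goal68 (Real.exp (-k))
  bessel : Y.BesselGoal
  endpoint : Y.EndpointGoal A.Hpath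

/-- `LocMainGoal` with the order of quantifiers required by Sec. 10.3: the exponent `Cm` does NOT depend on `C3`. -/
def LocMainGoal2 (c0 C0 : ℝ) : Prop :=
  ∀ θ Cb Cn : ℝ, 0 < θ → θ < 1 → 1 ≤ Cb → 0 ≤ Cn → ∃ Cm : ℝ, 0 < Cm ∧
  ∀ C3 ε : ℝ, 0 ≤ C3 → 0 < ε → ∃ kmin : ℝ, 1 ≤ kmin ∧
  ∀ (k q : ℝ), kmin ≤ k → 2 ≤ q → ∀ X : BaseSeg, X.Ok c0 C0 q θ Cb k → ∀ pat : Fin 4 → Bool, PatOk pat →
  ∀ N0 : ℕ, (∀ l I, LabFree N0 (X.U l I)) →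
  ∀ P : ℕ, 1 ≤ P → (P : ℝ) ≤ Real.exp k →
  ∃ (Y : LocSys LocTag) (A : LocSys.Acc), Y.X = X ∧ Y.pat = pat ∧ Y.p.P = P ∧ Y.MainOk A c0 C0 q θ Cb k C3 Cm Cn N0 ∧
    ∃ stops : Finset Cell, StopSet X.root stops ε ∧ ∀ I ∈ X.T, Retained stops I → Y.CS.good I

/-! ## Sec. 8 -/

/-- numerical bounds on the parameters of Sec. 8 (fields may be ADDED by helper61 / helper41) -/
structure S8Par.Bd (p : S8Par) (d : ℕ) (G0 CR k : ℝ) (P : ℕ) (C8 : ℝ) : Prop where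
  K_le : (p.K : ℝ) ≤ (1 + k + P) ^ C8
  CR_le : CR ≤ pbase C8 k P ^ C8
  CR_nn : 0 ≤ CR
  G0_le : G0 ≤ g0fun C8 k
  X17_le : p.X17 d G0 ≤ g0fun C8 k
  d_le : (d : ℝ) ≤ (1 + k + P) ^ C8
  logDs_le : Real.log p.Ds ≤ (1 + k + P) ^ C8
  Js_le : (p.Js : ℝ) * Real.log p.A0 ≤ (1 + k + P) ^ C8
  Ds_ge : Real.exp k ≤ p.Ds

/-- **Sec. 8, layer (A)** (Lemma 8.1, lift, offsets, Lemma 8.8, parameters), ONE LEAF `κ`.  All outputs (`d, p, G0, …`) may depend on the leaf.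
`Ex d M p` = whatever Sec. 9 needs about the mode system beyond `Valid`, `Link` (progression multiplier, fresh offsets, common gauge data …):
the predicate is chosen by helper61 + helper41; the glue `attemptGoal_of` is generic in it.
`Grow` = the constant of Lemma 8.8 without the lift (`hst_rowsGoal`, S7/RowsLoc.lean: `Grow = 8 Kap^4 ≤ g0fun Cg k`).  OWNER: helper61. -/
def S8AGoal (Ex : (d : ℕ) → ModeSys d → S8Par → Prop) (c0 C0 : ℝ) : Prop :=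
  ∀ θ Cb Cn Cm Cg : ℝ, 0 < θ → θ < 1 → 1 ≤ Cb → 0 ≤ Cn → 0 < Cm → 0 ≤ Cg → ∃ C8 : ℝ, 1 ≤ C8 ∧
  ∀ C3 Csm : ℝ, 0 ≤ C3 → 0 ≤ Csm → ∃ kmin : ℝ, 1 ≤ kmin ∧
  ∀ (k q : ℝ), kmin ≤ k → 2 ≤ q → ∀ (Y : LocSys LocTag) (A : LocSys.Acc) (N0 : ℕ),
    Y.X.Ok c0 C0 q θ Cb k → PatOk Y.pat → 1 ≤ Y.p.P → (Y.p.P : ℝ) ≤ Real.exp k → Y.MainOk A c0 C0 q θ Cb k C3 Cm Cn N0 →
    (∀ l I, LabFree N0 (Y.X.U l I)) →
  ∀ cells : Finset Cell, cells ⊆ Y.X.S.filter Y.CS.good →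
  ∀ κ ∈ Finset.Icc 1 Y.p.L, ∀ Grow : ℝ, 0 ≤ Grow → Grow ≤ g0fun Cg k → Y.RowsGoal κ Grow →
  ∃ (d : ℕ) (p : S8Par) (G0 CR small : ℝ) (M : ModeSys d), p.Ok d ∧ p.Bd d G0 CR k Y.p.P C8 ∧ 0 ≤ small ∧ small ≤ A.Dm ^ (-Csm) ∧
      M.root = Y.X.root ∧ (∀ l, M.isB l = !Y.pat l) ∧
      M.uses = Y.uses7 κ cells ∧ M.grps = Y.grps7 κ cells ∧ M.Valid p G0 ∧ M.Link p (Y.Z κ) CR small ∧ Ex d M p

/-! ## Sec. 9 -/

/-- **Prop. 9.3** in the form consumed by the assembly.  `Cp` = exponent bounding all polynomial inputs.  OWNER: helper41 (+ adapter helper61). -/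
def S9Goal (Ex : (d : ℕ) → ModeSys d → S8Par → Prop) (c0 C0 : ℝ) : Prop :=
  ∃ pw : ℝ, 2 / 3 ≤ pw ∧ pw < 1 ∧ ∀ Cp : ℝ, 1 ≤ Cp → ∃ C9 kmin : ℝ, 1 ≤ C9 ∧ 1 ≤ kmin ∧
  ∀ (k : ℝ) (P : ℕ), kmin ≤ k → 1 ≤ P → (P : ℝ) ≤ Real.exp k →
  ∀ (d : ℕ) (p : S8Par) (M : ModeSys d) (G0 CR small Pi : ℝ) (Z : Fin 4 → ℕ → Cell → XV) (cells : Finset Cell)
    (w : Cell → ℝ × ℝ → ℂ),
    p.Ok d → p.Bd d G0 CR k P Cp → M.Valid p G0 → M.Link p Z CR small → Ex d M p → small ≤ 1 → Pi ≤ pbase Cp k P ^ Cp →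
    (∀ I ∈ cells, I ≤ M.root ∧ Admissible c0 C0 I (w I)) → (∀ u ∈ M.uses, u.2 ∈ cells) →
    (∀ l, ∀ u ∈ M.uses, n2 u.2 (Z l u.1 u.2) ≤ Pi) →
    (∀ l, ∑ u ∈ M.uses, ‖restr u.2.set (M.Sc p Z l u.1 u.2)‖ ^ 2 ≤ Pi * M.root.len) →
  ∀ ε : ℝ, 0 < ε → ε < 1 → ∀ c : Fin 4 → Bool, (Finset.univ.filter fun l => c l = true).card ≤ 1 →
    Ctrl M.root cells (fun I => ‖gsum M.uses w (fun l => if c l then M.Sc p Z l else M.Ac p l) I‖)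
      (Real.exp (-k)) ((pbase C9 k P / ε) ^ C9) pw ε

/-! ## The operator layer of Sec. 7 -/

/-- small overhead of the operator layer -/
noncomputable def adpOH (Ca : ℝ) (m0 K : ℕ) (Kap X17 LU : ℝ) : ℝ :=
  ((4 : ℝ) ^ m0 * (2 + Real.log ((K : ℝ) + 2)) ^ (m0 + 1) * (Kap + X17 + LU + 2)) ^ Ca

/-- **[S7-ADP]**: validity of the side system of a leaf.  OWNER: helper52. -/
def AdpGoal (c0 C0 : ℝ) : Prop :=
  ∃ Ca : ℝ, 1 ≤ Ca ∧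
  ∀ (Y : LocSys LocTag) (κ : ℕ) (cells : Finset Cell) (d : ℕ) (M : ModeSys d) (p : S8Par) (hc : LocCat)
    (q η D Mm LU Dm Kap CR small X17 far G0 : ℝ) (m0 : ℕ),
    Y.X.Valid c0 C0 q η D Mm LU → 2 ≤ q → PatOk Y.pat →
    (∀ l c I, I ≤ Y.X.root → ∀ Φ ∈ Y.X.cat l c I, ∃ I' ∈ Y.X.T, I ≤ I' ∧ Φ ∈ Y.X.cat l c I') →
    Y.Valid Dm m0 → Y.BesselGoal → cells ⊆ Y.X.S.filter Y.CS.good → κ ∈ Finset.Icc 1 Y.p.L → Y.HelpValid hc Dm →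
    (∀ a b c e : Fin 4, slot4 a b c e → Y.pat c = false → Y.pat e = false →
      Y.TransferGoal hc κ a b c e (M.Sc p (Y.Z κ) a) (M.Sc p (Y.Z κ) b) far) →
    M.root = Y.X.root → (∀ l, M.isB l = !Y.pat l) → M.uses = Y.uses7 κ cells → M.grps = Y.grps7 κ cells → 1 ≤ p.K →
    M.Valid p G0 → M.Link p (Y.Z κ) CR small → M.G17 p X17 → 1 ≤ Kap →
    (∀ (l : Fin 4) (W : List ((Cell → Finset Col) × Bool)), (∀ f ∈ W, f.1 ∈ Y.famM l) → W.length ≤ m0 + 3 →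
      ComprFor Y.X.root W Kap) →
    0 ≤ far → 0 ≤ small → 0 ≤ CR → 0 ≤ X17 → 0 ≤ LU → 0 ≤ η →
  ∃ (Ntr Na Nb : ℕ) (Ea Eb Pi cc M0 : ℝ),
    (sideSysOf Y κ cells M p).Valid c0 C0 η Ntr Na Nb Ea Eb Pi cc M0 far small ∧
    (Ntr : ℝ) ≤ adpOH Ca m0 p.K Kap X17 LU ∧ (Na : ℝ) ≤ adpOH Ca m0 p.K Kap X17 LU ∧ (Nb : ℝ) ≤ adpOH Ca m0 p.K Kap X17 LU ∧
    Ea ≤ Y.p.P * adpOH Ca m0 p.K Kap X17 LU ∧ Eb ≤ adpOH Ca m0 p.K Kap X17 LU ∧ cc ≤ adpOH Ca m0 p.K Kap X17 LU ∧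
    Pi ≤ (((Y.p.P : ℝ) + 1) * ((p.K : ℝ) + 1) * (CR + 1)) ^ Ca * adpOH Ca m0 p.K Kap X17 LU ∧
    M0 ≤ max 1 (Mm * Y.p.D)

/-- what is still requested from `BaseSeg.Valid` (helper182): no births off the tree, finitely many private labels in the basic sides -/
def BaseExtra (c0 C0 : ℝ) : Prop :=
  ∀ (X : BaseSeg) (q θ Cb k : ℝ), X.Ok c0 C0 q θ Cb k →
    (∀ l c I, I ≤ X.root → ∀ Φ ∈ X.cat l c I, ∃ I' ∈ X.T, I ≤ I' ∧ Φ ∈ X.cat l c I') ∧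
    ∃ N0 : ℕ, ∀ l I, LabFree N0 (X.U l I)

/-- compression in the form consumed here (helper93: `s3_comprFor` + `hst_bud_M`) -/
def ComprGoal : Prop :=
  ∃ C : ℝ, 1 ≤ C ∧ ∀ (R : Cell) (ch : ℕ → Chart) (D : ℝ) (W : List ((Cell → Finset Col) × Bool)) (All : Cell → Finset Col),
    2 ≤ D → Inh R All → Bud R All ch D → (∀ f ∈ W, Inh R f.1 ∧ ∀ I, I ≤ R → f.1 I ⊆ All I) →
    ComprFor R W ((C * ((W.length : ℝ) + 1) ^ C * Real.log (2 * D)) ^ (C * ((W.length : ℝ) + 1)))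

end Claimed.Agent.R258
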