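/-
Row 258, Sec. 10.3 (home architect: helper244).  LEAF P-S10-NUM: the numerical lemmas of the construction of one attempt (S10/AttProof.lean).
Elementary real asymptotics, no paper.  `g0fun C k = exp (C (1 + log 2k)^C)`, `pbase C k P = (1 + k + P) g0fun C k`,
`adpOH Ca m0 K Kap X17 LU = (4^m0 (2 + log (K+2))^(m0+1) (Kap + X17 + LU + 2))^Ca`.
Hints.  `att_num1`: take logarithms; with `ℓ = 1 + log 2k ≥ 1`: `m0 ≤ Cm ℓ`, `log (K+2) ≤ C8 (k+2) + 1`, so `log (2 + log (K+2)) ≤ c ℓ`;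
`log (attKap) = Cc (m0+4) log (Cc (m0+4)^Cc log (2 Dm)) ≤ c ℓ · c ℓ`; `log (a+b+c+2) ≤ log 4 + max …`; everything is `≤ c ℓ^(max 2 C8)`; choose `Cp` large.
-/
import Claimed.Agent.R258.S10.Att

set_option autoImplicit false

namespace Claimed.Agent.R258

/-- the uniform compression constant for words of length `≤ m0 + 3` in a catalog of budget `Dm` -/
noncomputable def attKap (Cc : ℝ) (m0 : ℕ) (Dm : ℝ) : ℝ :=
  (Cc * (((m0 + 3 : ℕ) : ℝ) + 1) ^ Cc * Real.log (2 * Dm)) ^ (Cc * (((m0 + 3 : ℕ) : ℝ) + 1))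

theorem attn_log_ge {Dm : ℝ} (hD : 2 ≤ Dm) : 1 ≤ Real.log (2 * Dm) := by
  rw [Real.le_log_iff_exp_le (by linarith)]
  have := Real.exp_one_lt_d9
  linarith

theorem attn_base_ge (Cc : ℝ) (hCc : 1 ≤ Cc) (n : ℕ) (Dm : ℝ) (hD : 2 ≤ Dm) :
    1 ≤ Cc * ((n : ℝ) + 1) ^ Cc * Real.log (2 * Dm) := by
  have h1 : 1 ≤ ((n : ℝ) + 1) ^ Cc := Real.one_le_rpow (by linarith [(Nat.cast_nonneg n : (0:ℝ) ≤ n)]) (by linarith)
  have h2 := attn_log_ge hD
  calc (1 : ℝ) = 1 * 1 * 1 := by norm_num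
    _ ≤ _ := by gcongr

theorem att_kap_ge (Cc : ℝ) (hCc : 1 ≤ Cc) (m0 : ℕ) (Dm : ℝ) (hD : 2 ≤ Dm) : 1 ≤ attKap Cc m0 Dm := by
  unfold attKap
  exact Real.one_le_rpow (attn_base_ge Cc hCc _ Dm hD) (by positivity)

/-- monotonicity of the compression constant in the length of the word -/
theorem att_kap_mono (Cc : ℝ) (hCc : 1 ≤ Cc) (m0 n : ℕ) (hn : n ≤ m0 + 3) (Dm : ℝ) (hD : 2 ≤ Dm) :
    0 ≤ (Cc * ((n : ℝ) + 1) ^ Cc * Real.log (2 * Dm)) ^ (Cc * ((n : ℝ) + 1)) ∧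
    (Cc * ((n : ℝ) + 1) ^ Cc * Real.log (2 * Dm)) ^ (Cc * ((n : ℝ) + 1)) ≤ attKap Cc m0 Dm := by
  have hb := attn_base_ge Cc hCc n Dm hD
  have hb' := attn_base_ge Cc hCc (m0 + 3) Dm hD
  have hl := attn_log_ge hD
  have hnr : (n : ℝ) ≤ ((m0 + 3 : ℕ) : ℝ) := by exact_mod_cast hn
  refine ⟨Real.rpow_nonneg (by linarith) _, ?_⟩
  unfold attKap
  calc (Cc * ((n : ℝ) + 1) ^ Cc * Real.log (2 * Dm)) ^ (Cc * ((n : ℝ) + 1))
      ≤ (Cc * (((m0 + 3 : ℕ) : ℝ) + 1) ^ Cc * Real.log (2 * Dm)) ^ (Cc * ((n : ℝ) + 1)) := by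
        apply Real.rpow_le_rpow (by linarith) _ (by positivity)
        gcongr
    _ ≤ _ := by
        apply Real.rpow_le_rpow_of_exponent_le hb'
        gcongr

theorem attn_ell_ge {k : ℝ} (hk : 1 ≤ k) : 1 ≤ 1 + Real.log (2 * k) := by
  have : 0 ≤ Real.log (2 * k) := Real.log_nonneg (by linarith)
  linarith

theorem g0fun_ge_one (C k : ℝ) (hC : 0 ≤ C) (hk : 1 ≤ k) : 1 ≤ g0fun C k := fin_one_le_g0 hC hk

theorem g0fun_mono {C C' : ℝ} (k : ℝ) (hC : 0 ≤ C) (h : C ≤ C') (hk : 1 ≤ k) : g0fun C k ≤ g0fun C' k := by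
  unfold g0fun
  apply Real.exp_le_exp.2
  have hl := attn_ell_ge hk
  have h1 : (1 + Real.log (2 * k)) ^ C ≤ (1 + Real.log (2 * k)) ^ C' := Real.rpow_le_rpow_of_exponent_le hl h
  have h2 : 0 ≤ (1 + Real.log (2 * k)) ^ C := Real.rpow_nonneg (by linarith) _
  have h3 : 0 ≤ C' := hC.trans h
  gcongr

theorem pbase_ge_one (C k : ℝ) (P : ℕ) (hC : 0 ≤ C) (hk : 1 ≤ k) : 1 ≤ pbase C k P := by
  unfold pbase
  have h1 := g0fun_ge_one C k hC hk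
  have h2 : (1 : ℝ) ≤ 1 + k + P := by linarith [(Nat.cast_nonneg P : (0:ℝ) ≤ P)]
  calc (1 : ℝ) = 1 * 1 := by norm_num
    _ ≤ _ := by gcongr

theorem pbase_mono {C C' : ℝ} (k : ℝ) (P : ℕ) (hC : 0 ≤ C) (h : C ≤ C') (hk : 1 ≤ k) : pbase C k P ≤ pbase C' k P := by
  unfold pbase
  have h1 := g0fun_mono k hC h hk
  have h2 : (0 : ℝ) ≤ 1 + k + P := by linarith [(Nat.cast_nonneg P : (0:ℝ) ≤ P)]
  gcongr

/-- `x ^ a ≤ y ^ b` for `1 ≤ x ≤ y`, `0 ≤ a ≤ b` -/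
theorem attn_rpow_mono {x y a b : ℝ} (hx : 1 ≤ x) (hxy : x ≤ y) (ha : 0 ≤ a) (hab : a ≤ b) : x ^ a ≤ y ^ b :=
  (Real.rpow_le_rpow (by linarith) hxy ha).trans (Real.rpow_le_rpow_of_exponent_le (hx.trans hxy) hab)

/-- `pbase C k P ^ C` is monotone in `C` -/
theorem pbase_pow_mono {C C' : ℝ} (k : ℝ) (P : ℕ) (hC : 0 ≤ C) (h : C ≤ C') (hk : 1 ≤ k) : pbase C k P ^ C ≤ pbase C' k P ^ C' :=
  attn_rpow_mono (pbase_ge_one C k P hC hk) (pbase_mono k P hC h hk) hC h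

theorem pbase_div_pow_mono {C C' : ℝ} (k : ℝ) (P : ℕ) (ε : ℝ) (hε : 0 < ε) (hε1 : ε < 1) (hC : 0 ≤ C) (h : C ≤ C') (hk : 1 ≤ k) :
    (pbase C k P / ε) ^ C ≤ (pbase C' k P / ε) ^ C' := by
  apply attn_rpow_mono _ _ hC h
  · rw [le_div_iff₀ hε]
    linarith [pbase_ge_one C k P hC hk]
  · have := pbase_mono k P hC h hk
    gcongr

theorem S8Par.Bd.mono {p : S8Par} {d : ℕ} {G0 CR k : ℝ} {P : ℕ} {C C' : ℝ} (h : p.Bd d G0 CR k P C) (hC : 0 ≤ C) (hCC : C ≤ C')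
    (hk : 1 ≤ k) : p.Bd d G0 CR k P C' := by
  have hb : (1 : ℝ) ≤ 1 + k + P := by linarith [(Nat.cast_nonneg P : (0:ℝ) ≤ P)]
  have h1 : (1 + k + (P : ℝ)) ^ C ≤ (1 + k + (P : ℝ)) ^ C' := Real.rpow_le_rpow_of_exponent_le hb hCC
  have h2 := g0fun_mono k hC hCC hk
  exact
    { h with
      K_le := h.K_le.trans h1
      CR_le := h.CR_le.trans (pbase_pow_mono k P hC hCC hk)
      G0_le := h.G0_le.trans h2
      X17_le := h.X17_le.trans h2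
      d_le := h.d_le.trans h1
      logDs_le := h.logDs_le.trans h1
      Js_le := h.Js_le.trans h1 }

/-- the far bands -/
theorem att_num4 (Cfar k AD : ℝ) (hCfar : 0 ≤ Cfar) (hAD : Real.exp k ≤ AD) : AD ^ (-Cfar) ≤ Real.exp (-(Cfar * k)) := by
  calc AD ^ (-Cfar) ≤ Real.exp k ^ (-Cfar) := Real.rpow_le_rpow_of_nonpos (Real.exp_pos _) hAD (by linarith)
    _ = _ := by rw [← Real.exp_mul]; congr 1; ring

/-- the number of helper bases per cell -/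
theorem att_num2 (Cb Cm : ℝ) (hCb : 1 ≤ Cb) (hCm : 0 < Cm) :
    ∃ k2 : ℝ, 1 ≤ k2 ∧ ∀ (k : ℝ) (L D : ℕ) (AD : ℝ), k2 ≤ k → (L : ℝ) ≤ k ^ Cm → (D : ℝ) ≤ AD + 1 → AD ≤ Real.exp (k ^ Cb) →
      (L : ℝ) * (4 * (D : ℝ)) ≤ Real.exp (k ^ (Cb + 2)) := by
  obtain ⟨k0, hk0⟩ := Filter.eventually_atTop.1 (fin_log_asym 1 3 (Real.log 8) Cm 0 0 one_pos (by norm_num) le_rfl le_rfl)
  refine ⟨max 2 k0, le_trans (by norm_num) (le_max_left _ _), ?_⟩
  intro k L D AD hk hL hD hAD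
  have hk2 : 2 ≤ k := le_trans (le_max_left _ _) hk
  have h0 := hk0 k (le_trans (le_max_right _ _) hk)
  rw [Real.rpow_one, zero_mul, add_zero] at h0
  have hkpos : 0 < k := by linarith
  have hkb : k ≤ k ^ Cb := by
    calc k = k ^ (1 : ℝ) := (Real.rpow_one k).symm
      _ ≤ k ^ Cb := Real.rpow_le_rpow_of_exponent_le (by linarith) hCb
  have hkb2 : k ^ (Cb + 2) = k ^ Cb * k ^ 2 := by
    rw [Real.rpow_add hkpos]; congr 1
    rw [show (2:ℝ) = ((2:ℕ):ℝ) by norm_num, Real.rpow_natCast]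
  have h4 : 4 * k ^ Cb ≤ k ^ (Cb + 2) := by
    rw [hkb2]
    have : (4:ℝ) ≤ k ^ 2 := by nlinarith
    have h5 : 0 ≤ k ^ Cb := by positivity
    nlinarith
  have he1 : 1 ≤ Real.exp (k ^ Cb) := Real.one_le_exp (by positivity)
  calc (L : ℝ) * (4 * (D : ℝ)) ≤ k ^ Cm * (4 * (Real.exp (k ^ Cb) + Real.exp (k ^ Cb))) := by
        gcongr
        linarith
    _ = 8 * k ^ Cm * Real.exp (k ^ Cb) := by ring
    _ = Real.exp (Real.log 8 + Cm * Real.log k + k ^ Cb) := by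
        rw [Real.exp_add, Real.exp_add, Real.exp_log (by norm_num), Real.rpow_def_of_pos hkpos, mul_comm Cm]
    _ ≤ _ := Real.exp_le_exp.2 (by linarith)

/-- multiplicity against the physical error -/
theorem att_num3 (Cb Cm Cfar : ℝ) (hCb : 1 ≤ Cb) (hCm : 0 < Cm) (hCfar : 0 ≤ Cfar) :
    ∃ k3 : ℝ, 1 ≤ k3 ∧ ∀ (k AD AM Dm small M0 : ℝ) (D : ℕ), k3 ≤ k → Real.exp k ≤ AD → AD ≤ Dm → Dm ≤ Real.exp (k ^ Cm) →
      AM ≤ AD ^ Cb → (D : ℝ) ≤ AD + 1 → 0 ≤ small → small ≤ Dm ^ (-(2 * Cfar + Cb + 2)) → 1 ≤ M0 → M0 ≤ max 1 (AM * D) →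
      Real.sqrt (M0 * small) ≤ Real.exp (-(Cfar * k)) ∧ Real.log M0 ≤ k ^ (Cm + Cb + 1) ∧ small ≤ 1 := by
  refine ⟨2, by norm_num, ?_⟩
  intro k AD AM Dm small M0 D hk hAD hADm hDm hAM hD hs0 hs hM1 hM
  have hkpos : 0 < k := by linarith
  have he2 : 2 ≤ Real.exp k := by
    have := Real.add_one_le_exp k; linarith
  have hAD2 : 2 ≤ AD := he2.trans hAD
  have hDm2 : 2 ≤ Dm := hAD2.trans hADm
  have hDmpos : 0 < Dm := by linarith
  have hADpos : 0 < AD := by linarith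
  have hM0 : M0 ≤ Dm ^ (Cb + 2) := by
    refine hM.trans (max_le (Real.one_le_rpow (by linarith) (by linarith)) ?_)
    calc AM * D ≤ AD ^ Cb * (AD + 1) := by
          have : 0 ≤ AD ^ Cb := by positivity
          exact mul_le_mul hAM hD (Nat.cast_nonneg _) this
      _ ≤ Dm ^ Cb * (Dm * Dm) := by
          have h1 : AD ^ Cb ≤ Dm ^ Cb := Real.rpow_le_rpow hADpos.le hADm (by linarith)
          have h2 : AD + 1 ≤ Dm * Dm := by nlinarith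
          gcongr
      _ = Dm ^ (Cb + 2) := by
          rw [Real.rpow_add hDmpos]; congr 1
          rw [show (2:ℝ) = ((2:ℕ):ℝ) by norm_num, Real.rpow_natCast]; ring
  refine ⟨?_, ?_, ?_⟩
  · have h1 : M0 * small ≤ (Dm ^ (-Cfar)) ^ 2 := by
      calc M0 * small ≤ Dm ^ (Cb + 2) * Dm ^ (-(2 * Cfar + Cb + 2)) := by gcongr
        _ = (Dm ^ (-Cfar)) ^ 2 := by
            rw [← Real.rpow_add hDmpos, ← Real.rpow_natCast, ← Real.rpow_mul hDmpos.le]; congr 1; push_cast; ring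
    calc Real.sqrt (M0 * small) ≤ Real.sqrt ((Dm ^ (-Cfar)) ^ 2) := Real.sqrt_le_sqrt h1
      _ = Dm ^ (-Cfar) := Real.sqrt_sq (by positivity)
      _ ≤ _ := att_num4 Cfar k Dm hCfar (hAD.trans hADm)
  · have h1 : Real.log M0 ≤ (Cb + 2) * k ^ Cm := by
      calc Real.log M0 ≤ Real.log (Dm ^ (Cb + 2)) := Real.log_le_log (by linarith) hM0
        _ = (Cb + 2) * Real.log Dm := Real.log_rpow hDmpos _
        _ ≤ _ := by
            have : Real.log Dm ≤ k ^ Cm := by rw [Real.log_le_iff_le_exp hDmpos]; exact hDm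
            gcongr
    have h2 : Cb + 2 ≤ k ^ (Cb + 1) := by
      have h3 := one_add_mul_self_le_rpow_one_add (s := 1) (by norm_num) (p := Cb + 1) (by linarith)
      calc Cb + 2 = 1 + (Cb + 1) * 1 := by ring
        _ ≤ (1 + 1 : ℝ) ^ (Cb + 1) := h3
        _ ≤ k ^ (Cb + 1) := Real.rpow_le_rpow (by norm_num) (by linarith) (by linarith)
    calc Real.log M0 ≤ (Cb + 2) * k ^ Cm := h1
      _ ≤ k ^ (Cb + 1) * k ^ Cm := by gcongr
      _ = _ := by rw [← Real.rpow_add hkpos]; congr 1; ring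
  · exact hs.trans (Real.rpow_le_one_of_one_le_of_nonpos (by linarith) (by linarith))

theorem attn_logK {C8 k : ℝ} {P K : ℕ} (hC8 : 1 ≤ C8) (hk : 1 ≤ k) (hP : (P : ℝ) ≤ Real.exp k)
    (hK : (K : ℝ) ≤ (1 + k + P) ^ C8) :
    0 ≤ Real.log ((K : ℝ) + 2) ∧
    Real.log (2 + Real.log ((K : ℝ) + 2)) ≤ (Real.log (5 * C8) + 1) * (1 + Real.log (2 * k)) := by
  have hkpos : 0 < k := by linarith
  have hl := attn_ell_ge hk
  have hK0 : (0 : ℝ) ≤ K := Nat.cast_nonneg K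
  have h0 : 0 ≤ Real.log ((K : ℝ) + 2) := Real.log_nonneg (by linarith)
  refine ⟨h0, ?_⟩
  have hek : 1 + k ≤ Real.exp k := by linarith [Real.add_one_le_exp k]
  have hK' : (K : ℝ) ≤ (1 + k + Real.exp k) ^ C8 :=
    hK.trans (Real.rpow_le_rpow (by positivity) (by linarith) (by linarith))
  have hK2 := fin_K2 hC8 hk hek hK'
  have h1 : Real.log ((K : ℝ) + 2) ≤ C8 * (2 + k) := by
    calc Real.log ((K : ℝ) + 2) ≤ Real.log ((6 * Real.exp k) ^ C8) := Real.log_le_log (by linarith) hK2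
      _ = C8 * (Real.log 6 + k) := by
          rw [Real.log_rpow (by positivity), Real.log_mul (by norm_num) (Real.exp_pos _).ne', Real.log_exp]
      _ ≤ _ := by
          have h4 : Real.log 6 ≤ 2 := by
            rw [Real.log_le_iff_le_exp (by norm_num)]
            have h5 : Real.exp 2 = Real.exp 1 * Real.exp 1 := by rw [← Real.exp_add]; norm_num
            have h6 := Real.exp_one_gt_d9
            rw [h5]; nlinarith
          gcongr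
  have h2 : 2 + Real.log ((K : ℝ) + 2) ≤ 5 * C8 * k := by nlinarith
  have h3 : Real.log k ≤ 1 + Real.log (2 * k) := by
    rw [Real.log_mul (by norm_num) hkpos.ne']
    have := Real.log_nonneg (show (1:ℝ) ≤ 2 by norm_num)
    linarith
  have h5 : 0 ≤ Real.log (5 * C8) := Real.log_nonneg (by linarith)
  calc Real.log (2 + Real.log ((K : ℝ) + 2)) ≤ Real.log (5 * C8 * k) := Real.log_le_log (by linarith) h2
    _ = Real.log (5 * C8) + Real.log k := Real.log_mul (by positivity) hkpos.ne'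
    _ ≤ _ := by nlinarith

theorem attn_logKap {Cc Cm k Dm : ℝ} {m0 : ℕ} (hCc : 1 ≤ Cc) (hCm : 0 < Cm) (hk : 1 ≤ k)
    (hm0 : (m0 : ℝ) ≤ Cm * (1 + Real.log k)) (hD : 2 ≤ Dm) (hDm : Dm ≤ Real.exp (k ^ Cm)) :
    Real.log (attKap Cc m0 Dm) ≤ Cc * (Cm + 4) * (Cc + Cc * (Cm + 4) + 1 + Cm) * (1 + Real.log (2 * k)) ^ 2 := by
  have hkpos : 0 < k := by linarith
  have hl := attn_ell_ge hk
  set ℓ := 1 + Real.log (2 * k) with hℓ
  have hlk : Real.log k ≤ ℓ - 1 := by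
    rw [hℓ, Real.log_mul (by norm_num) hkpos.ne']
    have := Real.log_nonneg (show (1:ℝ) ≤ 2 by norm_num)
    linarith
  have hlk0 : 0 ≤ Real.log k := Real.log_nonneg hk
  obtain ⟨n4, hn4⟩ : ∃ n4 : ℝ, n4 = ((m0 + 3 : ℕ) : ℝ) + 1 := ⟨_, rfl⟩
  have hn41 : 1 ≤ n4 := by rw [hn4]; linarith [(Nat.cast_nonneg (m0 + 3) : (0:ℝ) ≤ ((m0 + 3 : ℕ) : ℝ))]
  have hn4le : n4 ≤ (Cm + 4) * ℓ := by
    rw [hn4]; push_cast
    have : Cm * (1 + Real.log k) ≤ Cm * ℓ := by gcongr; linarith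
    nlinarith
  have hL1 := attn_log_ge hD
  have hkm1 : 1 ≤ k ^ Cm := Real.one_le_rpow hk hCm.le
  have hL2 : Real.log (2 * Dm) ≤ 2 * k ^ Cm := by
    rw [Real.log_mul (by norm_num) (by linarith)]
    have h1 : Real.log Dm ≤ k ^ Cm := by rw [Real.log_le_iff_le_exp (by linarith)]; exact hDm
    have h2 : Real.log 2 ≤ 1 := by have := Real.log_two_lt_d9; linarith
    linarith
  have hLL : Real.log (Real.log (2 * Dm)) ≤ (1 + Cm) * ℓ := by
    calc Real.log (Real.log (2 * Dm)) ≤ Real.log (2 * k ^ Cm) := Real.log_le_log (by linarith) hL2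
      _ = Real.log 2 + Cm * Real.log k := by
          rw [Real.log_mul (by norm_num) (by positivity), Real.log_rpow hkpos]
      _ ≤ _ := by
          have h2 : Real.log 2 ≤ 1 := by have := Real.log_two_lt_d9; linarith
          have h3 : Cm * Real.log k ≤ Cm * ℓ := by gcongr; linarith
          nlinarith
  have hbase : Real.log (Cc * n4 ^ Cc * Real.log (2 * Dm)) ≤ (Cc + Cc * (Cm + 4) + 1 + Cm) * ℓ := by
    rw [Real.log_mul (by positivity) (by linarith), Real.log_mul (by positivity) (by positivity),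
      Real.log_rpow (by linarith)]
    have h1 : Real.log Cc ≤ Cc := Real.log_le_self (by linarith)
    have h2 : Real.log n4 ≤ n4 := Real.log_le_self (by linarith)
    have h3 : Cc * Real.log n4 ≤ Cc * ((Cm + 4) * ℓ) := by
      gcongr
      exact h2.trans hn4le
    have h4 : Cc ≤ Cc * ℓ := by nlinarith
    nlinarith
  have hbase0 : 0 ≤ Real.log (Cc * n4 ^ Cc * Real.log (2 * Dm)) := by
    apply Real.log_nonneg
    have := attn_base_ge Cc hCc (m0 + 3) Dm hD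
    rw [hn4]; exact this
  unfold attKap
  rw [← hn4, Real.log_rpow (by positivity)]
  calc Cc * n4 * Real.log (Cc * n4 ^ Cc * Real.log (2 * Dm))
      ≤ Cc * ((Cm + 4) * ℓ) * ((Cc + Cc * (Cm + 4) + 1 + Cm) * ℓ) := by gcongr
    _ = _ := by ring

theorem attn_logS {C8 Cb k Kap X17 LU : ℝ} (hC8 : 1 ≤ C8) (hCb : 1 ≤ Cb) (hk : 1 ≤ k) (hKap : 1 ≤ Kap)
    (hX0 : 0 ≤ X17) (hX : X17 ≤ g0fun C8 k) (hL0 : 0 ≤ LU) (hL : LU ≤ k ^ Cb) :
    Real.log (Kap + X17 + LU + 2) ≤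
      2 + Real.log Kap + C8 * (1 + Real.log (2 * k)) ^ C8 + Cb * (1 + Real.log (2 * k)) := by
  have hkpos : 0 < k := by linarith
  have hg := g0fun_ge_one C8 k (by linarith) hk
  have hkb : 1 ≤ k ^ Cb := Real.one_le_rpow hk (by linarith)
  have h1 : Kap + X17 + LU + 2 ≤ 5 * (Kap * (g0fun C8 k * k ^ Cb)) := by
    have a1 : 1 ≤ g0fun C8 k * k ^ Cb := by
      calc (1:ℝ) = 1 * 1 := by norm_num
        _ ≤ _ := by gcongr
    have a2 : Kap ≤ Kap * (g0fun C8 k * k ^ Cb) := by nlinarith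
    have a3 : g0fun C8 k ≤ g0fun C8 k * k ^ Cb := by nlinarith
    have a4 : k ^ Cb ≤ g0fun C8 k * k ^ Cb := by nlinarith
    have a5 : g0fun C8 k * k ^ Cb ≤ Kap * (g0fun C8 k * k ^ Cb) := by nlinarith
    linarith
  have h3 : Real.log k ≤ 1 + Real.log (2 * k) := by
    rw [Real.log_mul (by norm_num) hkpos.ne']
    have := Real.log_nonneg (show (1:ℝ) ≤ 2 by norm_num)
    linarith
  calc Real.log (Kap + X17 + LU + 2) ≤ Real.log (5 * (Kap * (g0fun C8 k * k ^ Cb))) :=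
        Real.log_le_log (by linarith) h1
    _ = Real.log 5 + Real.log Kap + C8 * (1 + Real.log (2 * k)) ^ C8 + Cb * Real.log k := by
        rw [Real.log_mul (by norm_num) (by positivity), Real.log_mul (by positivity) (by positivity),
          Real.log_mul (by positivity) (by positivity), Real.log_rpow hkpos, g0fun, Real.log_exp]
        ring
    _ ≤ _ := by
        have h4 : Real.log 5 ≤ 2 := by
          rw [Real.log_le_iff_le_exp (by norm_num)]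
          have h5 : Real.exp 2 = Real.exp 1 * Real.exp 1 := by rw [← Real.exp_add]; norm_num
          have h6 := Real.exp_one_gt_d9
          rw [h5]; nlinarith
        have h5 : Cb * Real.log k ≤ Cb * (1 + Real.log (2 * k)) := by gcongr
        linarith

/-- the constant of `attn_adpOH` -/
noncomputable def attnC3 (Cb Cm C8 Cc : ℝ) : ℝ :=
  2 * Cm + (Cm + 1) * (Real.log (5 * C8) + 1) + 2 + Cc * (Cm + 4) * (Cc + Cc * (Cm + 4) + 1 + Cm) + C8 + Cb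

theorem attn_adpOH {Cb Cm C8 Ca Cc : ℝ} (hCb : 1 ≤ Cb) (hCm : 0 < Cm) (hC8 : 1 ≤ C8) (hCa : 1 ≤ Ca) (hCc : 1 ≤ Cc)
    {k : ℝ} {P m0 K : ℕ} {Dm X17 LU : ℝ} (hk : 1 ≤ k) (hP : (P : ℝ) ≤ Real.exp k)
    (hm0 : (m0 : ℝ) ≤ Cm * (1 + Real.log k)) (hK : (K : ℝ) ≤ (1 + k + P) ^ C8) (hD : 2 ≤ Dm)
    (hDm : Dm ≤ Real.exp (k ^ Cm)) (hX0 : 0 ≤ X17) (hX : X17 ≤ g0fun C8 k) (hL0 : 0 ≤ LU) (hL : LU ≤ k ^ Cb) :
    adpOH Ca m0 K (attKap Cc m0 Dm) X17 LU ≤ g0fun (max (Ca * attnC3 Cb Cm C8 Cc) (max 2 C8)) k := by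
  have hkpos : 0 < k := by linarith
  have hl := attn_ell_ge hk
  have hKap := att_kap_ge Cc hCc m0 Dm hD
  obtain ⟨hlK0, hlK⟩ := attn_logK hC8 hk hP hK
  have hlKap := attn_logKap hCc hCm hk hm0 hD hDm
  have hlS := attn_logS hC8 hCb hk hKap hX0 hX hL0 hL
  set ℓ := 1 + Real.log (2 * k) with hℓ
  have hm0' : (m0 : ℝ) ≤ Cm * ℓ := by
    refine hm0.trans ?_
    have : Real.log k ≤ Real.log (2 * k) := Real.log_le_log hkpos (by linarith)
    gcongr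
    linarith
  set E := ℓ ^ (max 2 C8) with hE
  have hE2 : ℓ ^ 2 ≤ E := by
    rw [hE, ← Real.rpow_natCast]
    exact Real.rpow_le_rpow_of_exponent_le hl (by push_cast; exact le_max_left _ _)
  have hE8 : ℓ ^ C8 ≤ E := Real.rpow_le_rpow_of_exponent_le hl (le_max_right _ _)
  have hEl : ℓ ≤ E := le_trans (by nlinarith) hE2
  have hE1 : 1 ≤ E := hl.trans hEl
  have hc1 : 0 ≤ Real.log (5 * C8) := Real.log_nonneg (by linarith)
  have hlog4 : Real.log 4 ≤ 2 := by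
    have h1 : Real.log 4 = 2 * Real.log 2 := by
      rw [show (4:ℝ) = 2 ^ 2 by norm_num, Real.log_pow]; norm_num
    have := Real.log_two_lt_d9
    rw [h1]; linarith
  have hlog40 : 0 ≤ Real.log 4 := Real.log_nonneg (by norm_num)
  have hll0 : 0 ≤ Real.log (2 + Real.log ((K : ℝ) + 2)) := Real.log_nonneg (by linarith)
  have hm00 : (0 : ℝ) ≤ m0 := Nat.cast_nonneg _
  have hXpos : 0 < (4 : ℝ) ^ m0 * (2 + Real.log ((K : ℝ) + 2)) ^ (m0 + 1) * (attKap Cc m0 Dm + X17 + LU + 2) := by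
    positivity
  have hlogX : Real.log ((4 : ℝ) ^ m0 * (2 + Real.log ((K : ℝ) + 2)) ^ (m0 + 1) * (attKap Cc m0 Dm + X17 + LU + 2))
      ≤ attnC3 Cb Cm C8 Cc * E := by
    rw [Real.log_mul (by positivity) (by positivity), Real.log_mul (by positivity) (by positivity), Real.log_pow,
      Real.log_pow]
    have T1 : (m0 : ℝ) * Real.log 4 ≤ 2 * Cm * E := by
      calc (m0 : ℝ) * Real.log 4 ≤ (Cm * ℓ) * 2 := by gcongr
        _ ≤ (Cm * E) * 2 := by gcongr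
        _ = _ := by ring
    have T2 : ((m0 + 1 : ℕ) : ℝ) * Real.log (2 + Real.log ((K : ℝ) + 2)) ≤ (Cm + 1) * (Real.log (5 * C8) + 1) * E := by
      push_cast
      calc ((m0 : ℝ) + 1) * Real.log (2 + Real.log ((K : ℝ) + 2))
          ≤ (Cm * ℓ + ℓ) * ((Real.log (5 * C8) + 1) * ℓ) := by gcongr
        _ = (Cm + 1) * (Real.log (5 * C8) + 1) * ℓ ^ 2 := by ring
        _ ≤ _ := by gcongr
    have T3 : Real.log (attKap Cc m0 Dm + X17 + LU + 2)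
        ≤ (2 + Cc * (Cm + 4) * (Cc + Cc * (Cm + 4) + 1 + Cm) + C8 + Cb) * E := by
      have a1 : Cc * (Cm + 4) * (Cc + Cc * (Cm + 4) + 1 + Cm) * ℓ ^ 2
          ≤ Cc * (Cm + 4) * (Cc + Cc * (Cm + 4) + 1 + Cm) * E := by gcongr
      have a2 : C8 * ℓ ^ C8 ≤ C8 * E := by gcongr
      have a3 : Cb * ℓ ≤ Cb * E := by gcongr
      linarith
    unfold attnC3
    linarith
  have hc30 : 0 ≤ attnC3 Cb Cm C8 Cc := by unfold attnC3; positivity
  unfold adpOH g0fun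
  rw [Real.rpow_def_of_pos hXpos]
  apply Real.exp_le_exp.2
  rw [← hℓ]
  calc Real.log ((4 : ℝ) ^ m0 * (2 + Real.log ((K : ℝ) + 2)) ^ (m0 + 1) * (attKap Cc m0 Dm + X17 + LU + 2)) * Ca
      ≤ (attnC3 Cb Cm C8 Cc * E) * Ca := by gcongr
    _ = (Ca * attnC3 Cb Cm C8 Cc) * E := by ring
    _ ≤ max (Ca * attnC3 Cb Cm C8 Cc) (max 2 C8) * ℓ ^ (max (Ca * attnC3 Cb Cm C8 Cc) (max 2 C8)) := by
        have b1 : E ≤ ℓ ^ (max (Ca * attnC3 Cb Cm C8 Cc) (max 2 C8)) :=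
          Real.rpow_le_rpow_of_exponent_le hl (le_max_right _ _)
        have b2 : Ca * attnC3 Cb Cm C8 Cc ≤ max (Ca * attnC3 Cb Cm C8 Cc) (max 2 C8) := le_max_left _ _
        have b3 : 0 ≤ Ca * attnC3 Cb Cm C8 Cc := by positivity
        have b4 : 0 ≤ E := by linarith
        exact mul_le_mul b2 b1 b4 (b3.trans b2)

/-- the small overhead and the polynomial budget of the adapter -/
theorem att_num1 (Cb Cm C8 Ca Cc : ℝ) (hCb : 1 ≤ Cb) (hCm : 0 < Cm) (hC8 : 1 ≤ C8) (hCa : 1 ≤ Ca) (hCc : 1 ≤ Cc) :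
    ∃ Cp k1 : ℝ, 1 ≤ Cp ∧ C8 ≤ Cp ∧ 1 ≤ k1 ∧
    ∀ (k : ℝ) (P m0 K : ℕ) (Dm X17 LU CR : ℝ), k1 ≤ k → 1 ≤ P → (P : ℝ) ≤ Real.exp k →
      (m0 : ℝ) ≤ Cm * (1 + Real.log k) → (K : ℝ) ≤ (1 + k + P) ^ C8 → 2 ≤ Dm → Dm ≤ Real.exp (k ^ Cm) →
      0 ≤ X17 → X17 ≤ g0fun C8 k → 0 ≤ LU → LU ≤ k ^ Cb → 0 ≤ CR → CR ≤ pbase C8 k P ^ C8 →
      adpOH Ca m0 K (attKap Cc m0 Dm) X17 LU ≤ g0fun Cp k ∧
      (((P : ℝ) + 1) * ((K : ℝ) + 1) * (CR + 1)) ^ Ca * adpOH Ca m0 K (attKap Cc m0 Dm) X17 LU ≤ pbase Cp k P ^ Cp := by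
  obtain ⟨Cp1, hCp1⟩ : ∃ Cp1 : ℝ, Cp1 = max (Ca * attnC3 Cb Cm C8 Cc) (max 2 C8) := ⟨_, rfl⟩
  have hCp18 : C8 ≤ Cp1 := by rw [hCp1]; exact le_trans (le_max_right _ _) (le_max_right _ _)
  have hCp10 : 0 ≤ Cp1 := by linarith
  have hx1 : 0 ≤ (3 + 2 * C8) * Ca := by positivity
  have hx2 : 0 ≤ C8 * Ca := by positivity
  refine ⟨Cp1 + (3 + 2 * C8) * Ca + C8 * Ca + 1, 1, by linarith, by linarith, le_rfl, ?_⟩
  intro k P m0 K Dm X17 LU CR hk hP1 hP hm0 hK hD hDm hX0 hX hL0 hL hCR0 hCR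
  set Cp := Cp1 + (3 + 2 * C8) * Ca + C8 * Ca + 1 with hCp
  have hOH := attn_adpOH hCb hCm hC8 hCa hCc hk hP hm0 hK hD hDm hX0 hX hL0 hL
  rw [← hCp1] at hOH
  have hg1p : g0fun Cp1 k ≤ g0fun Cp k := g0fun_mono k hCp10 (by linarith) hk
  have hg8p : g0fun C8 k ≤ g0fun Cp k := g0fun_mono k (by linarith) (by linarith) hk
  refine ⟨hOH.trans hg1p, ?_⟩
  have hPr : (1 : ℝ) ≤ P := by exact_mod_cast hP1
  set b : ℝ := 1 + k + P with hb
  have hb3 : 3 ≤ b := by linarith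
  have hbpos : 0 < b := by linarith
  have hg8 := g0fun_ge_one C8 k (by linarith) hk
  have hgp := g0fun_ge_one Cp k (by linarith) hk
  set g8 := g0fun C8 k
  set gp := g0fun Cp k
  have hb8 : 1 ≤ b ^ C8 := Real.one_le_rpow (by linarith) (by linarith)
  have hg88 : 1 ≤ g8 ^ C8 := Real.one_le_rpow hg8 (by linarith)
  have hCR' : CR ≤ b ^ C8 * g8 ^ C8 := by
    refine hCR.trans (le_of_eq ?_)
    unfold pbase
    rw [Real.mul_rpow hbpos.le (by linarith)]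
  have hK0 : (0 : ℝ) ≤ K := Nat.cast_nonneg _
  have hprod : ((P : ℝ) + 1) * ((K : ℝ) + 1) * (CR + 1) ≤ b ^ (3 + 2 * C8) * g8 ^ C8 := by
    have h1 : (P : ℝ) + 1 ≤ b := by linarith
    have h2 : (K : ℝ) + 1 ≤ 2 * b ^ C8 := by linarith
    have h3 : CR + 1 ≤ 2 * (b ^ C8 * g8 ^ C8) := by
      have : 1 ≤ b ^ C8 * g8 ^ C8 := by
        calc (1:ℝ) = 1 * 1 := by norm_num
          _ ≤ _ := by gcongr
      linarith
    calc ((P : ℝ) + 1) * ((K : ℝ) + 1) * (CR + 1) ≤ b * (2 * b ^ C8) * (2 * (b ^ C8 * g8 ^ C8)) := by gcongr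
      _ = 4 * (b * b ^ C8 * b ^ C8) * g8 ^ C8 := by ring
      _ ≤ b ^ 2 * (b * b ^ C8 * b ^ C8) * g8 ^ C8 := by
          have : (4:ℝ) ≤ b ^ 2 := by nlinarith
          gcongr
      _ = _ := by
          congr 1
          have e1 : b ^ (3 + 2 * C8) = b ^ (2 : ℝ) * b ^ (1 : ℝ) * b ^ C8 * b ^ C8 := by
            rw [← Real.rpow_add hbpos, ← Real.rpow_add hbpos, ← Real.rpow_add hbpos]; congr 1; ring
          rw [e1, Real.rpow_one, show (2:ℝ) = ((2:ℕ):ℝ) by norm_num, Real.rpow_natCast]; ring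
  have hOH0 : 0 ≤ adpOH Ca m0 K (attKap Cc m0 Dm) X17 LU := by
    unfold adpOH
    apply Real.rpow_nonneg
    have := att_kap_ge Cc hCc m0 Dm hD
    have h2 := (attn_logK hC8 hk hP hK).1
    positivity
  calc (((P : ℝ) + 1) * ((K : ℝ) + 1) * (CR + 1)) ^ Ca * adpOH Ca m0 K (attKap Cc m0 Dm) X17 LU
      ≤ (b ^ (3 + 2 * C8) * g8 ^ C8) ^ Ca * gp := by
        have h5 : (((P : ℝ) + 1) * ((K : ℝ) + 1) * (CR + 1)) ^ Ca ≤ (b ^ (3 + 2 * C8) * g8 ^ C8) ^ Ca :=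
          Real.rpow_le_rpow (by positivity) hprod (by linarith)
        exact mul_le_mul h5 (hOH.trans hg1p) hOH0 (by positivity)
    _ = b ^ ((3 + 2 * C8) * Ca) * (g8 ^ (C8 * Ca) * gp) := by
        rw [Real.mul_rpow (by positivity) (by positivity), ← Real.rpow_mul hbpos.le, ← Real.rpow_mul (by linarith)]
        ring
    _ ≤ b ^ Cp * (gp ^ (C8 * Ca) * gp ^ (1 : ℝ)) := by
        have h6 : b ^ ((3 + 2 * C8) * Ca) ≤ b ^ Cp := Real.rpow_le_rpow_of_exponent_le (by linarith) (by linarith)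
        have h7 : g8 ^ (C8 * Ca) ≤ gp ^ (C8 * Ca) := Real.rpow_le_rpow (by linarith) hg8p hx2
        rw [Real.rpow_one]
        gcongr
    _ ≤ b ^ Cp * gp ^ Cp := by
        rw [← Real.rpow_add (by linarith)]
        have : gp ^ (C8 * Ca + 1) ≤ gp ^ Cp := Real.rpow_le_rpow_of_exponent_le hgp (by linarith)
        gcongr
    _ = _ := by
        unfold pbase
        rw [Real.mul_rpow hbpos.le (by linarith)]

/-- the constant of Lemma 8.8 without the lift is a small overhead -/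
theorem att_num5 (Cm Cc : ℝ) (hCm : 0 < Cm) (hCc : 1 ≤ Cc) :
    ∃ Cg k5 : ℝ, 0 ≤ Cg ∧ 1 ≤ k5 ∧ ∀ (k : ℝ) (m0 : ℕ) (Dm : ℝ), k5 ≤ k → (m0 : ℝ) ≤ Cm * (1 + Real.log k) → 2 ≤ Dm →
      Dm ≤ Real.exp (k ^ Cm) → 8 * attKap Cc m0 Dm ^ 4 ≤ g0fun Cg k := by
  have hA : 0 ≤ Cc * (Cm + 4) * (Cc + Cc * (Cm + 4) + 1 + Cm) := by positivity
  refine ⟨max (3 + 4 * (Cc * (Cm + 4) * (Cc + Cc * (Cm + 4) + 1 + Cm))) 2, 1, le_trans (by norm_num) (le_max_right _ _), le_rfl, ?_⟩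
  intro k m0 Dm hk hm0 hD hDm
  have h1 := attn_logKap hCc hCm hk hm0 hD hDm
  have hKap := att_kap_ge Cc hCc m0 Dm hD
  have hl := attn_ell_ge hk
  unfold g0fun
  rw [← Real.log_le_iff_le_exp (by positivity), Real.log_mul (by norm_num) (by positivity), Real.log_pow]
  have h8 : Real.log 8 ≤ 3 := by
    rw [Real.log_le_iff_le_exp (by norm_num)]
    have h5 : Real.exp 3 = Real.exp 1 * Real.exp 1 * Real.exp 1 := by rw [← Real.exp_add, ← Real.exp_add]; norm_num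
    have h6 := Real.exp_one_gt_d9
    have h7 : (2 : ℝ) ≤ Real.exp 1 := by linarith
    rw [h5]
    calc (8 : ℝ) = 2 * 2 * 2 := by norm_num
      _ ≤ _ := by gcongr
  set ℓ := 1 + Real.log (2 * k) with hℓ
  set A := Cc * (Cm + 4) * (Cc + Cc * (Cm + 4) + 1 + Cm) with hAdef
  have hl2 : 1 ≤ ℓ ^ 2 := one_le_pow₀ hl
  have h2 : ℓ ^ 2 ≤ ℓ ^ (max (3 + 4 * A) 2) := by
    rw [← Real.rpow_natCast]
    exact Real.rpow_le_rpow_of_exponent_le hl (by push_cast; exact le_max_right _ _)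
  calc Real.log 8 + ((4 : ℕ) : ℝ) * Real.log (attKap Cc m0 Dm) ≤ 3 * ℓ ^ 2 + 4 * (A * ℓ ^ 2) := by
        push_cast
        linarith
    _ = (3 + 4 * A) * ℓ ^ 2 := by ring
    _ ≤ max (3 + 4 * A) 2 * ℓ ^ (max (3 + 4 * A) 2) :=
        mul_le_mul (le_max_left _ _) h2 (by positivity) (le_trans (by norm_num) (le_max_right _ _))

/-- the number of groups meeting a cell is below the main budget (for the consumer of `s8_layerA0`).
Hint: `n 0 ≥ p.D`, `ratio` at `r = 1`: `n 1 ≥ n 0 (1 + M E)`, `E ≥ 1 / τ3^2 ≥ big^2 ≥ (d0^8+1)^4` (all other factors are `≥ 1`; `τ3 big ≤ e^(-k) ≤ 1`). -/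
theorem att_grp (A : LocSys.Acc) (p : LocParams) (k C3 : ℝ) (h : A.Num p k C3) (hP : 1 ≤ p.P) :
    ((p.D * (p.d0 ^ 8 + 1) : ℕ) : ℝ) ≤ A.Dm := by
  have hk := h.k_ge
  have hD1 : 1 ≤ A.D := le_trans (Real.one_le_exp (by linarith)) h.D_ge
  have hpD : (1 : ℝ) ≤ p.D := hD1.trans h.pD_ge
  have hP' : (1 : ℝ) ≤ p.P := by exact_mod_cast hP
  have hM := h.M_ge
  have hH0 := h.H0_ge
  have hτ := h.τ3_pos
  obtain ⟨w, hw⟩ : ∃ w : ℝ, w = (p.d0 : ℝ) ^ 8 + 1 := ⟨_, rfl⟩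
  have hw1 : 1 ≤ w := by
    have : (0 : ℝ) ≤ (p.d0 : ℝ) ^ 8 := by positivity
    linarith
  have hL0 : (0 : ℝ) ≤ p.L := Nat.cast_nonneg _
  have hm0 : (0 : ℝ) ≤ A.m0 := Nat.cast_nonneg _
  have hbig : w ^ 2 ≤ A.big p := by
    unfold LocSys.Acc.big
    rw [← hw]
    have f1 : (1 : ℝ) ≤ 10 ^ 6 := by norm_num
    have f2 : (1 : ℝ) ≤ (p.L : ℝ) + 1 := by linarith
    have f3 : (1 : ℝ) ≤ (A.D + 1) ^ 6 := one_le_pow₀ (by linarith)
    have f4 : (1 : ℝ) ≤ 4 ^ A.m0 := one_le_pow₀ (by norm_num)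
    have f5 : (1 : ℝ) ≤ (A.m0 : ℝ) + 1 := by linarith
    have f6 : (1 : ℝ) ≤ ((p.P : ℝ) + 1) ^ 2 := one_le_pow₀ (by linarith)
    calc w ^ 2 = 1 * 1 * 1 * 1 * w ^ 2 * 1 * 1 * 1 := by ring
      _ ≤ _ := by gcongr
  have hbig0 : 0 < A.big p := lt_of_lt_of_le (by positivity) hbig
  have hτb : A.τ3 * A.big p ≤ 1 :=
    (h.τ3_small.trans (min_le_left _ _)).trans (Real.exp_le_one_iff.2 (by linarith))
  have hinv : A.big p ^ 2 ≤ 1 / A.τ3 ^ 2 := by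
    rw [le_div_iff₀ (by positivity)]
    calc A.big p ^ 2 * A.τ3 ^ 2 = (A.τ3 * A.big p) ^ 2 := by ring
      _ ≤ 1 := pow_le_one₀ (by positivity) hτb
  have hw4 : w ≤ A.big p ^ 2 := by
    have : w ^ 2 ≤ A.big p ^ 2 := by
      calc w ^ 2 ≤ A.big p := hbig
        _ ≤ A.big p ^ 2 := by
            have : 1 ≤ A.big p := le_trans (one_le_pow₀ hw1) hbig
            nlinarith
    nlinarith
  have hlast : 1 / A.τ3 ^ 2 ≤ 2 * A.H0 ^ 2 * A.D ^ 2 / A.τ3 ^ 2 := by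
    have g1 : (1 : ℝ) ≤ A.H0 ^ 2 := one_le_pow₀ hH0
    have g2 : (1 : ℝ) ≤ A.D ^ 2 := one_le_pow₀ hD1
    have : (1 : ℝ) ≤ 2 * A.H0 ^ 2 * A.D ^ 2 := by
      calc (1 : ℝ) = 1 * 1 * 1 := by norm_num
        _ ≤ _ := by gcongr; norm_num
    gcongr
  have hNf : 1 ≤ LocSys.Acc.Nf p := by
    unfold LocSys.Acc.Nf
    linarith
  have hNcfg : 1 ≤ A.Ncfg p := by
    unfold LocSys.Acc.Ncfg
    have g1 : (1 : ℝ) ≤ A.Nb := le_trans (by norm_num) h.Nb_ge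
    have g2 : (1 : ℝ) ≤ (2 * LocSys.Acc.Nf p + 1) ^ A.m0 := one_le_pow₀ (by linarith)
    calc (1 : ℝ) = 1 * 1 * 1 * 1 := by norm_num
      _ ≤ _ := by gcongr
  have hK : 1 ≤ A.K p := by
    unfold LocSys.Acc.K
    refine one_le_pow₀ ?_
    have : (1 : ℝ) ≤ (s3_LT (A.T0 p) : ℝ) := by
      have : 1 ≤ s3_LT (A.T0 p) := by unfold s3_LT; omega
      exact_mod_cast this
    linarith
  have hE : w ≤ A.E p := by
    unfold LocSys.Acc.E
    calc w = 1 * 1 * w := by ring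
      _ ≤ A.Ncfg p * A.K p * (2 * A.H0 ^ 2 * A.D ^ 2 / A.τ3 ^ 2) := by
          gcongr
          exact hw4.trans (hinv.trans hlast)
  have hME : w ≤ 1 + A.M * A.E p := by
    have : A.E p ≤ A.M * A.E p := by nlinarith
    linarith
  have hr := h.ratio 1 le_rfl (by omega)
  have hn1 := h.n_le 1 (by omega)
  have hn0 := h.n_zero
  rw [Nat.sub_self] at hr
  push_cast
  rw [← hw]
  calc (p.D : ℝ) * w ≤ A.n 0 * (1 + A.M * A.E p) := mul_le_mul hn0 hME (by linarith) (by linarith)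
    _ ≤ A.Dm := hr.trans hn1

end Claimed.Agent.R258
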