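/-
Row 258, Sec. 10.1 (home architect: helper244).  BLOCK [S10-ATT]: the glue `attemptGoal_of` (plan in the header of S10/Att.lean).
Small auxiliary facts (`att_*`, LEAF P-S10-AUX) are stated first.
-/
import Claimed.Agent.R258.S10.AttNum
import Claimed.Agent.R258.S8.Side
import Claimed.Agent.R258.S3.Final
import Claimed.Agent.R258.S7.RowsLoc

set_option autoImplicit false
open MeasureTheory

namespace Claimed.Agent.R258

open Classical

/-! ## auxiliary facts (LEAF P-S10-AUX) -/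

theorem att_labFree_mono {N N' : ℕ} {x : XV} (h : LabFree N x) (hN : N ≤ N') : LabFree N' x :=
  fun v hv => h v (hN.trans hv)

theorem att_inh_avail (Y : LocSys LocTag) {Dm : ℝ} {m0 : ℕ} (hY : Y.Valid Dm m0) : Inh Y.X.root Y.cat.avail := by
  refine ⟨fun I Φ h => (Finset.mem_filter.1 h).2, fun I I' _ hII Φ h => ?_, fun I I' Φ h Φ' h' hl => ?_⟩
  · obtain ⟨h1, h2⟩ := Finset.mem_filter.1 h
    exact Finset.mem_filter.2 ⟨h1, hII.trans h2⟩
  · exact hY.lab_inj Φ (Finset.mem_filter.1 h).1 Φ' (Finset.mem_filter.1 h').1 hl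

theorem att_sub_avail (Y : LocSys LocTag) {Dm : ℝ} {m0 : ℕ} (hY : Y.Valid Dm m0) {c0 C0 q η D M LU : ℝ}
    (hX : Y.X.Valid c0 C0 q η D M LU)
    (htree : ∀ l c I, I ≤ Y.X.root → ∀ Φ ∈ Y.X.cat l c I, ∃ I' ∈ Y.X.T, I ≤ I' ∧ Φ ∈ Y.X.cat l c I') (l : Fin 4) :
    ∀ g ∈ Y.famM l, ∀ I, I ≤ Y.X.root → g I ⊆ Y.cat.avail I := by
  rintro g (⟨f, pd, rfl⟩ | ⟨c, rfl⟩) I hI Φ hΦ
  · obtain ⟨h1, h2, -⟩ := Finset.mem_filter.1 hΦ
    exact Finset.mem_filter.2 ⟨h1, h2⟩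
  · obtain ⟨I', hI', -, h⟩ := htree l c I hI Φ hΦ
    exact Finset.mem_filter.2 ⟨(hY.basic l c I' hI' Φ h).1, hX.cat_birth l c I Φ hΦ⟩

theorem att_cur_card (Y : LocSys LocTag) (κ : ℕ) (I : Cell) : (Y.cur κ I).card ≤ Y.p.D := by
  unfold LocSys.cur
  exact (Finset.card_filter_le _ _).trans (Finset.card_image_le.trans (Y.B.card_le I))

theorem att_leafForm (Y : LocSys LocTag) (κ : ℕ) (cells : Finset Cell) {I : Cell} (hI : I ∈ cells) :
    Y.leafForm κ I = gsum (Y.uses7 κ cells) Y.X.w (Y.Z κ) I := by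
  unfold LocSys.leafForm gsum
  rw [Y.hst_usesAt κ cells hI]

theorem att_sum_Icc {M : Type*} [AddCommMonoid M] (L : ℕ) (f : ℕ → M) : ∑ κ ∈ Finset.Icc 1 L, f κ = ∑ i : Fin L, f (i + 1) := by
  rw [Fin.sum_univ_eq_sum_range (fun i => f (i + 1)) L, Finset.range_eq_Ico, Finset.sum_Ico_add' f 0 L 1]
  congr 1

theorem att_X17_nn {p : S8Par} {d : ℕ} (hp : p.Ok d) {G0 : ℝ} (hG0 : 0 ≤ G0) : 0 ≤ p.X17 d G0 := by
  unfold S8Par.X17 S8Par.N0
  have h1 := hp.δ_pos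
  have h2 : (0 : ℝ) ≤ ((harmonic p.Dm : ℚ) : ℝ) := by
    have : (0 : ℚ) ≤ harmonic p.Dm := by
      unfold harmonic
      positivity
    exact_mod_cast this
  positivity

/-- the helper bases: all side states of all leaves at the current groups, on the active cells -/
noncomputable def attBases (Y : LocSys LocTag) (Sd : ℕ → Fin 4 → ℕ → Cell → XV) (I : Cell) : Finset (Fin 4 × XV) :=
  if I ∈ Y.X.S then
    (Finset.Icc 1 Y.p.L).biUnion fun κ => (Finset.univ : Finset (Fin 4)).biUnion fun a =>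
      (Y.cur κ I).image fun G => (a, Sd κ a G I)
  else ∅

theorem att_mem_bases {Y : LocSys LocTag} {Sd : ℕ → Fin 4 → ℕ → Cell → XV} {I : Cell} {x : Fin 4 × XV} :
    x ∈ attBases Y Sd I ↔ I ∈ Y.X.S ∧ ∃ κ ∈ Finset.Icc 1 Y.p.L, ∃ a, ∃ G ∈ Y.cur κ I, (a, Sd κ a G I) = x := by
  unfold attBases
  split_ifs with h
  · simp only [Finset.mem_biUnion, Finset.mem_image, Finset.mem_univ, true_and, h]
  · simp [h]

theorem att_bases_card (Y : LocSys LocTag) (Sd : ℕ → Fin 4 → ℕ → Cell → XV) (I : Cell) :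
    ((attBases Y Sd I).card : ℝ) ≤ (Y.p.L : ℝ) * (4 * (Y.p.D : ℝ)) := by
  have h : (attBases Y Sd I).card ≤ Y.p.L * (4 * Y.p.D) := by
    unfold attBases
    split_ifs
    · refine (Finset.card_biUnion_le_card_mul _ _ (4 * Y.p.D) (fun κ _ => ?_)).trans (by simp)
      refine (Finset.card_biUnion_le_card_mul _ _ Y.p.D (fun a _ => ?_)).trans (by simp)
      exact Finset.card_image_le.trans (att_cur_card Y κ I)
    · simp
  exact_mod_cast h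

/-- the localized arguments have no component in the private coordinates of labels outside the main catalog -/
theorem att_Z_priv (Y : LocSys LocTag) (κ : ℕ) (l : Fin 4) (G : ℕ) (J : Cell) {v : ℕ} (hv : ∀ Φ ∈ Y.cat.cols, Φ.lab ≠ v) :
    Y.Z κ l G J ∈ xvPrivZero v := by
  unfold LocSys.Z LocSys.Qbar
  rw [smul_apply, sum_apply]
  refine Submodule.smul_mem _ _ (Submodule.sum_mem _ fun pd _ => ?_)
  exact xv_cproj_mem_privZero J (fun Φ hΦ => hv Φ (Finset.mem_filter.1 hΦ).1) _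

theorem att_sub_priv {d : ℕ} (M : ModeSys d) (l : Fin 4) (G : ℕ) (U I : Cell) (𝒟 : Finset ℕ) {v : ℕ} (hv : v ∉ 𝒟) :
    M.sub l G U I 𝒟 ∈ xvPrivZero v := by
  unfold ModeSys.sub
  refine Submodule.sum_mem _ fun m hm => Submodule.smul_mem _ _ (xv_vec_mem_privZero _ _ ?_)
  rintro rfl
  exact hv hm

/-- every single side state involves finitely many private labels -/
theorem att_Sc_lab (Y : LocSys LocTag) (κ : ℕ) {d : ℕ} (M : ModeSys d) (p : S8Par) (l : Fin 4) (G : ℕ) (I : Cell) :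
    ∃ N1 : ℕ, LabFree N1 (M.Sc p (Y.Z κ) l G I) := by
  refine ⟨max (Y.cat.cols.sup (fun Φ => Φ.lab) + 1) ((M.sideL p l G (s8Pre p.K M.root I)).sup id + 1), fun v hv => ?_⟩
  have h1 : ∀ Φ ∈ Y.cat.cols, Φ.lab ≠ v := by
    intro Φ hΦ he
    have := Finset.le_sup (f := fun Φ : Col => Φ.lab) hΦ
    have h2 := (le_max_left _ _).trans hv
    omega
  have h2 : v ∉ M.sideL p l G (s8Pre p.K M.root I) := by
    intro hm
    have := Finset.le_sup (f := id) hm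
    have h2 := (le_max_right _ _).trans hv
    simp only [id] at this
    omega
  have hmem : M.Sc p (Y.Z κ) l G I ∈ xvPrivZero v := by
    unfold ModeSys.Sc ModeSys.Zf ModeSys.Vc
    split_ifs
    · exact Submodule.add_mem _ (Submodule.sub_mem _ (att_Z_priv Y κ l G I h1)
        (xv_restr_mem_privZero (cell_measurableSet I) (att_Z_priv Y κ l G _ h1))) (att_sub_priv M l G _ I _ h2)
    · exact Submodule.add_mem _ (Submodule.sub_mem _ (att_Z_priv Y κ l G I h1) (Submodule.zero_mem _)) (Submodule.zero_mem _)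
    · exact att_Z_priv Y κ l G I h1
  exact hmem

/-- **`ComprGoal`** (helper93: `s3_comprFor'`, `s3_colBudget_of_bud`) -/
theorem att_comprGoal : ComprGoal := by
  refine ⟨200, by norm_num, fun R ch D W All hD hI hB hW => ?_⟩
  rw [← s3_Kap_eq]
  exact s3_comprFor' R _ D (s3_colBudget_of_bud hD hI hB) W fun f hf =>
    s3_MaskIn.of_inh (hW f hf).1 fun I hIR Φ hΦ => ⟨I, hIR, (hW f hf).2 I hIR hΦ⟩

/-! ## the glue -/

/-- **Sec. 10.1.**  BLOCK [S10-ATT] -/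
theorem attemptGoal_of (Ex : (d : ℕ) → ModeSys d → S8Par → Prop) (c0 C0 : ℝ)
    (h6 : LocMainGoal2 c0 C0) (h6h : LocHelperGoal c0 C0) (h8 : S8AGoal Ex c0 C0) (h9 : S9Goal Ex c0 C0) (h7 : AdpGoal c0 C0)
    (h3 : ComprGoal) (h5 : BaseExtra c0 C0) : AttemptGoal c0 C0 := by
  intro θ Cb hθ0 hθ1 hCb
  have hCn : (0 : ℝ) ≤ Cb + 2 := by linarith
  obtain ⟨Cm, hCm, h6⟩ := h6 θ Cb (Cb + 2) hθ0 hθ1 hCb hCn
  obtain ⟨Ca, hCa, h7⟩ := h7
  obtain ⟨Cc, hCc, h3⟩ := h3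
  obtain ⟨Cg, k5, hCg, hk5, hn5⟩ := att_num5 Cm Cc hCm hCc
  obtain ⟨C8, hC8, h8⟩ := h8 θ Cb (Cb + 2) Cm Cg hθ0 hθ1 hCb hCn hCm hCg
  obtain ⟨Cp, k1, hCp, hC8p, hk1, hn1⟩ := att_num1 Cb Cm C8 Ca Cc hCb hCm hC8 hCa hCc
  obtain ⟨pw, hpw0, hpw1, h9⟩ := h9
  obtain ⟨C9, k9, hC9, hk9, h9⟩ := h9 Cp hCp
  obtain ⟨k2, hk2, hn2⟩ := att_num2 Cb Cm hCb hCm
  set Cx : ℝ := max (max Cp C9) (Cm + Cb + 1) with hCx
  have hx1 : Cp ≤ Cx := (le_max_left _ _).trans (le_max_left _ _)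
  have hx2 : C9 ≤ Cx := (le_max_right _ _).trans (le_max_left _ _)
  have hx3 : Cm + Cb + 1 ≤ Cx := le_max_right _ _
  have hx4 : Cm ≤ Cx := by linarith
  have hx5 : C8 ≤ Cx := hC8p.trans hx1
  refine ⟨Cx, pw, hCp.trans hx1, hpw0, hpw1, ?_⟩
  intro Cfar hCfar
  have hCsm : (0 : ℝ) ≤ 2 * Cfar + Cb + 2 := by linarith
  obtain ⟨k6, hk6, h6⟩ := h6 Cfar (1 / 16) hCfar (by norm_num)
  obtain ⟨k8, hk8, h8⟩ := h8 Cfar (2 * Cfar + Cb + 2) hCfar hCsm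
  obtain ⟨k3, hk3, hn3⟩ := att_num3 Cb Cm Cfar hCb hCm hCfar
  refine ⟨max (max (max k1 k9) (max k2 k6)) (max (max k8 k3) k5), ?_, ?_⟩
  · exact (hk1.trans (le_max_left _ _)).trans ((le_max_left _ _).trans (le_max_left _ _))
  intro k q hk hq2 hq3 X hX pat hpat P hP1 hP2
  have hkk1 : k1 ≤ k := ((le_max_left _ _).trans ((le_max_left _ _).trans (le_max_left _ _))).trans hk
  have hkk9 : k9 ≤ k := ((le_max_right _ _).trans ((le_max_left _ _).trans (le_max_left _ _))).trans hk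
  have hkk2 : k2 ≤ k := ((le_max_left _ _).trans ((le_max_right _ _).trans (le_max_left _ _))).trans hk
  have hkk6 : k6 ≤ k := ((le_max_right _ _).trans ((le_max_right _ _).trans (le_max_left _ _))).trans hk
  have hkk8 : k8 ≤ k := ((le_max_left _ _).trans ((le_max_left _ _).trans (le_max_right _ _))).trans hk
  have hkk3 : k3 ≤ k := ((le_max_right _ _).trans ((le_max_left _ _).trans (le_max_right _ _))).trans hk
  have hkk5 : k5 ≤ k := ((le_max_right _ _).trans (le_max_right _ _)).trans hk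
  have hk1' : 1 ≤ k := hk1.trans hkk1
  obtain ⟨htree, N0, hN0⟩ := h5 X q θ Cb k hX
  obtain ⟨Y, A, rfl, rfl, rfl, hM, stops, hstop, hgood⟩ := h6 k q hkk6 hq2.le X hX pat hpat N0 hN0 P hP1 hP2
  obtain ⟨LU, hLU0, hLU, hXV⟩ := hM.xv
  set cells : Finset Cell := Y.X.S.filter (Retained stops) with hcells
  have hsub : cells ⊆ Y.X.S.filter Y.CS.good := by
    intro I hI
    rw [hcells, Finset.mem_filter] at hI
    exact Finset.mem_filter.2 ⟨hI.1, hgood I (hXV.S_sub hI.1) hI.2⟩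
  have hnum := hM.inner.num
  have hDpos : 0 < A.D := (Real.exp_pos k).trans_le hM.D_ge
  have he2 : (2 : ℝ) ≤ Real.exp k := by
    have := Real.add_one_le_exp k
    linarith
  have hDm2 : 2 ≤ A.Dm := he2.trans (hM.D_ge.trans hM.D_le)
  -- compression
  have hKap1 : 1 ≤ attKap Cc A.m0 A.Dm := att_kap_ge Cc hCc A.m0 A.Dm hDm2
  have hcompr : ∀ (l : Fin 4) (W : List ((Cell → Finset Col) × Bool)), (∀ f ∈ W, f.1 ∈ Y.famM l) → W.length ≤ A.m0 + 3 →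
      ComprFor Y.X.root W (attKap Cc A.m0 A.Dm) := by
    intro l W hW hlen
    have h := h3 Y.X.root Y.cat.chart A.Dm W Y.cat.avail hDm2 (att_inh_avail Y hM.valid) hM.valid.bud
      (fun f hf => ⟨Y.hst_inh_M hM.valid hXV l f.1 (hW f hf), att_sub_avail Y hM.valid hXV htree l f.1 (hW f hf)⟩)
    obtain ⟨h0, h1⟩ := att_kap_mono Cc hCc A.m0 W.length hlen A.Dm hDm2
    exact h.mono h0 h1
  -- the mode systems
  have hmodes : ∀ κ, ∃ (Sd : Fin 4 → ℕ → Cell → XV), κ ∈ Finset.Icc 1 Y.p.L →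
      ∃ (d : ℕ) (p : S8Par) (G0 CR small : ℝ) (M : ModeSys d), Sd = M.Sc p (Y.Z κ) ∧ p.Ok d ∧ p.Bd d G0 CR k Y.p.P C8 ∧
        0 ≤ small ∧ small ≤ A.Dm ^ (-(2 * Cfar + Cb + 2)) ∧ M.root = Y.X.root ∧ (∀ l, M.isB l = !Y.pat l) ∧
        M.uses = Y.uses7 κ cells ∧ M.grps = Y.grps7 κ cells ∧ M.Valid p G0 ∧ M.Link p (Y.Z κ) CR small ∧ Ex d M p := by
    intro κ
    by_cases hκ : κ ∈ Finset.Icc 1 Y.p.L
    · obtain ⟨d, p, G0, CR, small, M, a1, a2, a3, a4, a5, a6, a7, a8, a9, a10, a11⟩ :=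
        h8 k q hkk8 hq2.le Y A N0 hX hpat hP1 hP2 hM hN0 cells hsub κ hκ (8 * attKap Cc A.m0 A.Dm ^ 4) (by positivity)
          (hn5 k A.m0 A.Dm hkk5 hM.m0_le hDm2 hM.Dm_le) (Y.hst_rowsGoal hM.valid hM.bessel hXV hq2.le κ hKap1 hcompr)
      exact ⟨M.Sc p (Y.Z κ), fun _ => ⟨d, p, G0, CR, small, M, rfl, a1, a2, a3, a4, a5, a6, a7, a8, a9, a10, a11⟩⟩
    · exact ⟨fun _ _ _ => 0, fun h => absurd h hκ⟩
  choose Sd hmodes using hmodes
  -- the helper closure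
  have hcard : ∀ I, ((attBases Y Sd I).card : ℝ) ≤ A.Nb := fun I =>
    (att_bases_card Y Sd I).trans ((hn2 k Y.p.L Y.p.D A.D hkk2 hM.L_le hnum.pD_le hM.D_le').trans hM.Nb_ge)
  have hlab1 : ∀ I, ∀ x ∈ attBases Y Sd I, ∃ N : ℕ, LabFree N x.2 := by
    intro I x hx
    obtain ⟨-, κ, hκ, a, G, -, rfl⟩ := att_mem_bases.1 hx
    obtain ⟨d, p, G0, CR, small, M, hSd, -⟩ := hmodes κ hκ
    rw [hSd]
    exact att_Sc_lab Y κ M p a G I
  have hlab : ∃ N : ℕ, ∀ I, ∀ x ∈ attBases Y Sd I, LabFree N x.2 := by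
    choose! Nx hNx using hlab1
    refine ⟨Y.X.S.sup fun I => (attBases Y Sd I).sup (Nx I), fun I x hx => ?_⟩
    have hI : I ∈ Y.X.S := (att_mem_bases.1 hx).1
    exact att_labFree_mono (hNx I x hx) ((Finset.le_sup (f := Nx I) hx).trans
      (Finset.le_sup (f := fun I => (attBases Y Sd I).sup (Nx I)) hI))
  obtain ⟨Nlab, hlab⟩ := hlab
  obtain ⟨hc, hhv, -, htr⟩ := h6h k Cfar Y A hpat hM.valid hM.inner (attBases Y Sd) Nlab hcard hlab
  have hk0 : (0 : ℝ) < k := by linarith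
  have hb1 : (1 : ℝ) ≤ 1 + k + (Y.p.P : ℝ) := by
    have : (0 : ℝ) ≤ (Y.p.P : ℝ) := Nat.cast_nonneg _
    linarith
  -- one leaf
  have hleaf : ∀ κ ∈ Finset.Icc 1 Y.p.L, ∃ (Ys : SideSys) (Ntr Na Nb : ℕ) (Ea Eb Pi cc M0 far small : ℝ),
      Ys.uses = Y.uses7 κ cells ∧ Ys.Z = Y.Z κ ∧
      Ys.R = Y.X.root ∧ Ys.cells = cells ∧ Ys.w = Y.X.w ∧ Ys.P = Y.p.P ∧
      (Ys.K : ℝ) ≤ (1 + k + Y.p.P) ^ Cx ∧
      Ys.Valid c0 C0 (Real.exp (-(k ^ θ))) Ntr Na Nb Ea Eb Pi cc M0 far small ∧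
      (∀ ε : ℝ, 0 < ε → ε < 1 → ∀ c : Fin 4 → Bool, (Finset.univ.filter fun l => c l = true).card ≤ 1 →
        Ctrl Y.X.root cells (fun I => ‖gsum Ys.uses Ys.w (Ys.patArg c) I‖)
          (Real.exp (-k)) ((pbase Cx k Y.p.P / ε) ^ Cx) pw ε) ∧
      (Ntr : ℝ) ≤ g0fun Cx k ∧ (Na : ℝ) ≤ g0fun Cx k ∧ (Nb : ℝ) ≤ g0fun Cx k ∧
      Ea ≤ Y.p.P * g0fun Cx k ∧ Eb ≤ g0fun Cx k ∧ cc ≤ g0fun Cx k ∧ Real.log M0 ≤ k ^ Cx ∧
      Pi ≤ pbase Cx k Y.p.P ^ Cx ∧ far ≤ Real.exp (-(Cfar * k)) ∧ Real.sqrt (M0 * small) ≤ Real.exp (-(Cfar * k)) := by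
    intro κ hκ
    obtain ⟨d, p, G0, CR, small, M, hSd, hp, hbd, hs0, hs, hroot, hisB, huses, hgrps, hV, hL, hEx⟩ := hmodes κ hκ
    have hX17 : 0 ≤ p.X17 d G0 := att_X17_nn hp hV.G0_nonneg
    have hfar0 : 0 ≤ A.D ^ (-Cfar) := Real.rpow_nonneg hDpos.le _
    obtain ⟨Ntr, Na, Nb, Ea, Eb, Pi, cc, M0, hval, b1, b2, b3, b4, b5, b6, b7, b8⟩ :=
      h7 Y κ cells d M p hc q (Real.exp (-(k ^ θ))) A.D A.M LU A.Dm (attKap Cc A.m0 A.Dm) CR small (p.X17 d G0)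
        (A.D ^ (-Cfar)) G0 A.m0 hXV hq2.le hpat htree hM.valid hM.bessel hsub hκ hhv
        (fun a b c e hs4 hc1 he1 => htr κ a b c e _ _ hκ hs4 hc1 he1 (fun I hI G hG =>
          att_mem_bases.2 ⟨hI, κ, hκ, a, G, hG, by rw [hSd]⟩))
        hroot hisB huses hgrps hp.K_pos hV hL (M.g17 hV hp) hKap1 hcompr
        hfar0 hs0 hbd.CR_nn hX17 hLU0 (Real.exp_pos _).le
    obtain ⟨n1, n2'⟩ := hn1 k Y.p.P A.m0 p.K A.Dm (p.X17 d G0) LU CR hkk1 hP1 hP2 hM.m0_le hbd.K_le hDm2 hM.Dm_le hX17 hbd.X17_le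
      hLU0 hLU hbd.CR_nn hbd.CR_le
    obtain ⟨n3, n4, n5⟩ := hn3 k A.D A.M A.Dm small M0 Y.p.D hkk3 hM.D_ge hM.D_le hM.Dm_le hM.M_le hnum.pD_le hs0 hs hval.pos.2.2.2 b8
    have hg : g0fun Cp k ≤ g0fun Cx k := g0fun_mono k (by linarith) hx1 hk1'
    have hoh := n1.trans hg
    refine ⟨sideSysOf Y κ cells M p, Ntr, Na, Nb, Ea, Eb, Pi, cc, M0, A.D ^ (-Cfar), small, rfl, rfl, rfl, rfl, rfl, rfl, ?_, hval, ?_,
      b1.trans hoh, b2.trans hoh, b3.trans hoh, ?_, b5.trans hoh, b6.trans hoh, ?_, ?_, att_num4 Cfar k A.D hCfar hM.D_ge, n3⟩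
    · exact hbd.K_le.trans (Real.rpow_le_rpow_of_exponent_le hb1 hx5)
    · intro ε hε0 hε1 c hc'
      have h := h9 k Y.p.P hkk9 hP1 hP2 d p M G0 CR small Pi (Y.Z κ) cells Y.X.w hp (hbd.mono (by linarith) hC8p hk1')
        hV hL hEx n5 (b7.trans n2')
        (fun I hI => ⟨by rw [hroot]; exact hval.cells_le I hI, hval.adm I hI⟩)
        (fun u hu => by rw [huses] at hu; exact (hval.uses_sub u hu).2)
        (fun l u hu => by rw [huses] at hu; exact hval.Z_le l u hu)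
        (fun l => by rw [huses, hroot]; exact hval.S_bud l) ε hε0 hε1 c hc'
      rw [hroot, huses] at h
      exact h.mono (fun I _ => le_rfl) le_rfl (pbase_div_pow_mono k Y.p.P ε hε0 hε1 (by linarith) hx2 hk1') le_rfl
    · exact b4.trans (mul_le_mul_of_nonneg_left hoh (Nat.cast_nonneg _))
    · exact n4.trans (Real.rpow_le_rpow_of_exponent_le hk1' hx3)
    · exact (b7.trans n2').trans (pbase_pow_mono k Y.p.P (by linarith) hx1 hk1')
  have hleaf' : ∀ i : Fin Y.p.L, ((i : ℕ) + 1) ∈ Finset.Icc 1 Y.p.L := fun i =>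
    Finset.mem_Icc.2 ⟨by omega, by have := i.2; omega⟩
  choose Ys hYs using fun i : Fin Y.p.L => hleaf ((i : ℕ) + 1) (hleaf' i)
  refine ⟨stops, Y.p.L, Ys, hstop, ?_, ?_, ?_⟩
  · exact hM.L_le.trans (Real.rpow_le_rpow_of_exponent_le hk1' hx4)
  · intro i
    obtain ⟨Ntr, Na, Nb, Ea, Eb, Pi, cc, M0, far, small, -, -, h⟩ := hYs i
    exact ⟨Ntr, Na, Nb, Ea, Eb, Pi, cc, M0, far, small, h⟩
  · have h68 := hM.g68
    unfold LocSys.Goal68 at h68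
    refine le_trans ?_ h68
    refine le_trans (le_of_eq ?_) (Finset.sum_le_sum_of_subset_of_nonneg hsub
      (fun I _ _ => mul_nonneg (ctrl_len_nonneg I) (norm_nonneg _)))
    refine Finset.sum_congr rfl (fun I hI => ?_)
    rw [att_sum_Icc]
    congr 3
    refine Finset.sum_congr rfl (fun i _ => ?_)
    obtain ⟨Ntr, Na, Nb, Ea, Eb, Pi, cc, M0, far, small, e1, e2, e3, e4, e5, -⟩ := hYs i
    rw [e1, e2, e5]
    exact (att_leafForm Y _ cells hI).symm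

end Claimed.Agent.R258
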